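import Vale.Agent.P352X.R.ZC

/-!
# P352X: covariant multiplets and their components in the moving null frame (helper21)
-/

set_option linter.all false

open MeasureTheory Measure Set Filter Topology
open scoped SchwartzMap ComplexConjugate NNReal ENNReal

namespace Vale.Agent.P352X.Two

open Vale.Agent.P352.GF Vale.Agent.P352.BW Vale.Agent.P352.H496 Vale.Agent.P352.H755
open Vale.Agent.P352.H246 (In)
open UniformSpace (Completion)
open Complex (I)

noncomputable section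

/-- the covariant components of a product of vectors -/
def sy {k : ℕ} (h : Fin k → V) (J : Fin k → Ix) : ℝ := ∏ j, eta (J j) * h j (J j)

lemma sy_cov {k : ℕ} {L : Ix → V} (hL : IsLor L) (t : Fin k → ℝ) (h : Fin k → V)
    (ν : Fin k → Ix) : ∑ μ : Fin k → Ix, (∏ i, L (ν i) (μ i)) *
      sy (fun j => t j • sim 1 L 0 (h j)) μ = (∏ j, t j) * sy h ν := by
  simp only [sy, ← Finset.prod_mul_distrib]
  rw [← Fintype.piFinset_univ, ← Finset.prod_univ_sum (fun _ => Finset.univ)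
    fun i m => L (ν i) m * (eta m * (t i • sim 1 L 0 (h i)) m)]
  refine Finset.prod_congr rfl fun i _ => ?_
  have := (conf_lor hL).md (h i) (one (ν i))
  rw [show sim 1 L 0 (one (ν i)) = L (ν i) from funext fun n => by simp [sim, one, bas]] at this
  calc _ = t i * mdot (sim 1 L 0 (h i)) (L (ν i)) := by
        rw [mdot, Finset.mul_sum]
        exact Finset.sum_congr rfl fun m _ => by simp only [Pi.smul_apply, smul_eq_mul]; ring
    _ = _ := by rw [this]; simp [mdot, one, bas]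

/-- the moving frame -/
def fr (A : Fin 4) (p : V) : V :=
  ![va, be p • ex 0 + tx p 0 • va, be p • ex 1 + tx p 1 • va, p] A

/-- `p_a ^ 2` times the dual frame -/
def du (A : Fin 4) (p : V) : V :=
  ![be p • p - mu p • va, -(be p • ex 0 + tx p 0 • va), -(be p • ex 1 + tx p 1 • va), be p • va] A

/-- the coefficients in the moving frame -/
def cf (h : V) (A : Fin 4) (p : V) : ℝ := mdot h (du A p) / be p ^ 2

def xw : Fin 4 → ℝ := ![1 / 2, 1, 1, 1 / 2]
def yw : Fin 4 → ℝ := ![-1 / 2, 0, 0, 1 / 2]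

lemma cont_fr (A : Fin 4) : Continuous (fr A) := by
  fin_cases A <;> (unfold fr; simp only [Matrix.cons_val, Fin.reduceFinMk, Fin.isValue]; fun_prop)

lemma cont_du (A : Fin 4) : Continuous (du A) := by
  fin_cases A <;> (unfold du; simp only [Matrix.cons_val, Fin.reduceFinMk, Fin.isValue]; fun_prop)

lemma meas_cf (h : V) (A : Fin 4) : Measurable (cf h A) := by
  have := cont_du A
  unfold cf
  fun_prop

lemma cont_cf (h : V) (A : Fin 4) : ContinuousOn (cf h A) {p | 0 < be p} := by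
  have := cont_du A
  exact ContinuousOn.div (by fun_prop) (by fun_prop) fun p hp => pow_ne_zero 2 (ne_of_gt hp)

lemma fr_dec (h : V) {p : V} (hp : be p ≠ 0) : h = ∑ A, cf h A p • fr A p := by
  refine null_ext ?_ ?_ (funext fun i => ?_)
  · simp [Fin.sum_univ_four, cf, fr, du, mdot_null, mu_eq, d2, e2, -tx_0, -tx_1]
    field_simp
    ring
  · simp [Fin.sum_univ_four, cf, fr, du, mdot_null, mu_eq, d2, e2, -tx_0, -tx_1]
    field_simp
  · fin_cases i <;> simp [Fin.sum_univ_four, cf, fr, du, mdot_null, mu_eq, d2, e2, -tx_0, -tx_1] <;>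
      field_simp <;> ring

lemma sy_dec {k : ℕ} (h : Fin k → V) (J : Fin k → Ix) {p : V} (hp : be p ≠ 0) :
    sy h J = ∑ A : Fin k → Fin 4, (∏ j, cf (h j) (A j) p) * sy (fun j => fr (A j) p) J := by
  simp only [sy, ← Finset.prod_mul_distrib]
  rw [← Fintype.piFinset_univ, ← Finset.prod_univ_sum (fun _ => Finset.univ)
    fun j A => cf (h j) A p * (eta (J j) * fr A p (J j))]
  refine Finset.prod_congr rfl fun j _ => ?_
  conv_lhs => rw [fr_dec (h j) hp]
  rw [Finset.sum_apply, Finset.mul_sum]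
  exact Finset.sum_congr rfl fun m _ => by simp only [Pi.smul_apply, smul_eq_mul]; ring

lemma fr_gap (A : Fin 4) (w : R2) (p : V) : fr A p = gap w (fr A (gap (-w) p)) := by
  fin_cases A
  · exact null_ext (by simp [fr]) (by simp [fr]) (by simp [fr])
  · exact null_ext (by simp [fr, d2_smul, -tx_0]) (by simp [fr]) (by simp [fr])
  · exact null_ext (by simp [fr, d2_smul, -tx_1]) (by simp [fr]) (by simp [fr])
  · simp [fr, gap_gap]

lemma fr_scp (A : Fin 4) {r s : ℝ} (hr : 0 < r) (hs : 0 < s) (p : V) :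
    fr A p = (r ^ xw A * s ^ yw A)⁻¹ • (Real.sqrt (r * s))⁻¹ • scp r s (fr A (scp s r p)) := by
  obtain ⟨a, ha, rfl⟩ : ∃ a, 0 < a ∧ r = a ^ 2 := ⟨_, Real.sqrt_pos.2 hr, (Real.sq_sqrt hr.le).symm⟩
  obtain ⟨b, hb, rfl⟩ : ∃ a, 0 < a ∧ s = a ^ 2 := ⟨_, Real.sqrt_pos.2 hs, (Real.sq_sqrt hs.le).symm⟩
  have e1 : Real.sqrt (a ^ 2 * b ^ 2) = a * b := by
    rw [← mul_pow, Real.sqrt_sq (by positivity)]
  have e2 : Real.sqrt (b ^ 2 * a ^ 2) = a * b := by rw [mul_comm, e1]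
  have e3 : ∀ {x : ℝ}, 0 < x → (x ^ 2) ^ (2⁻¹ : ℝ) = x := fun hx => by
    rw [← one_div, ← Real.sqrt_eq_rpow, Real.sqrt_sq hx.le]
  have e4 : (b ^ 2) ^ (-1 / 2 : ℝ) = b⁻¹ := by
    rw [neg_div, Real.rpow_neg (by positivity), one_div, e3 hb]
  fin_cases A <;> refine null_ext ?_ ?_ (funext fun i => ?_) <;>
    simp [fr, xw, yw, e1, e2, e3 ha, e3 hb, e4, -tx_0, -tx_1] <;> field_simp

variable {D : Type*} [NormedAddCommGroup D] [InnerProductSpace ℂ D] {c : Ctx D} {k : ℕ} {d : ℝ}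
  {Λ : (Fin k → Ix) → Sch →L[ℂ] Completion D}

/-- covariant multiplets -/
def Mu (c : Ctx D) (d : ℝ) (Λ : (Fin k → Ix) → Sch →L[ℂ] Completion D) : Prop :=
  ∀ μ s L a (f g : Sch), 0 < s → IsLor L → (∀ x, g x = f (sim s L a x)) →
    Λ μ f = ∑ ν : Fin k → Ix, ((s ^ (4 - d) * ∏ i, L (ν i) (μ i) : ℝ) : ℂ) • Ug c.Q s L a (Λ ν g)

/-- the reference function in Schwartz space -/
def gS : Sch := exists_g0.choose

lemma Mu.tr (h : Mu c d Λ) (μ : Fin k → Ix) (y : V) (f : Sch) :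
    Λ μ (ST.tsl y f) = Ut c.Q y (Λ μ f) := by
  rw [h μ 1 one y _ f one_pos isLor_one fun x => (congrFun (Grp.tsl_sim y f) x).symm,
    Finset.sum_eq_single μ (fun ν _ hν => ?_) (by simp)]
  · simp [one, bas, Ut]
  · obtain ⟨i, hi⟩ := Function.ne_iff.1 hν
    rw [Finset.prod_eq_zero (Finset.mem_univ i) (by simp [one, bas, hi.symm])]
    simp

lemma Mu.rel (h : Mu c d Λ) (μ : Fin k → Ix) (f : Sch) :
    c.bt.Phi (ft g0) (Λ μ f) = c.bt.Phi (ft (ev f)) (Λ μ gS) :=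
  rel_clm (Λ μ) (fun y _ => h.tr μ y f) fun y _ => h.tr μ y gS

lemma Phi_sum {ι : Type*} [Fintype ι] (a : ι → ℂ) {F : ι → V → ℂ} (hF : ∀ i, SN.Bd (F i))
    (z : Completion D) : ∑ i, a i • c.bt.Phi (F i) z = c.bt.Phi (fun p => ∑ i, a i * F i p) z := by
  rw [c.bt.sum _ fun i _ => (hF i).smul (a i), ContinuousLinearMap.sum_apply]
  exact Finset.sum_congr rfl fun i _ => by rw [c.bt.smul _ (hF i)]; rfl

/-- the contraction with vector fields -/
def Zs (c : Ctx D) (Λ : (Fin k → Ix) → Sch →L[ℂ] Completion D) (K : V → ℂ) (u : Fin k → V → V) :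
    Completion D := ∑ J, c.bt.Phi (fun p => K p * sy (fun j => u j p) J) (Λ J gS)

lemma ug_ut {s : ℝ} {L : Ix → V} (hs : 0 < s) (hL : IsLor L) (y : V) :
    Ug c.Q s L 0 * Ut c.Q y = Ut c.Q (sim s L 0 y) * Ug c.Q s L 0 := by
  ext z
  simp only [ContinuousLinearMap.mul_apply, Br.Ut_apply, Ug_apply _ hs hL]
  exact Kin.Ue_tr c.bR hs hL 0 y z

variable {s : ℝ} {L : Ix → V} {κ κ' : V → V} {K : V → ℂ}

lemma Mu.key (h : Mu c d Λ) (hs : 0 < s) (hL : IsLor L) (hk : Measurable κ)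
    (hA : ∀ p y, mdot (κ p) y = mdot p (sim s L 0 y)) (h1 : ∀ p, κ (κ' p) = p)
    (h2 : ∀ p, κ' (κ p) = p) (μ : Fin k → Ix) :
    c.bt.Phi (fun p => ft g0 (κ p)) (Λ μ gS) = ∑ ν : Fin k → Ix,
      ((s ^ (-d) * ∏ i, L (ν i) (μ i) : ℝ) : ℂ) • c.bt.Phi (ft g0) (Ug c.Q s L 0 (Λ ν gS)) := by
  rw [h μ s L 0 gS _ hs hL (Grp.simS_apply hs hL 0 gS), _root_.map_sum]
  refine Finset.sum_congr rfl fun ν _ => ?_
  rw [map_smul, ← Phi_W hk (ug_ut hs hL) hA wt_g0.bd, h.rel,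
    Phi_W hk (ug_ut hs hL) hA (bd_ft ⟨_, rfl⟩), show (fun p => ft (ev (Grp.simS hs hL 0 gS)) (κ p)) =
      fun p => ((((s ^ 2) ^ 2)⁻¹ : ℝ) : ℂ) * ft g0 p from funext fun p => by
        rw [show ev (Grp.simS hs hL 0 gS) = fun z => g0 (sim s L 0 z) from
          funext (Grp.simS_apply hs hL 0 gS), ft_conf (conf_sim hs hL) (q := p) fun z => by
            rw [← hA]], c.bt.smul _ wt_g0.bd, ContinuousLinearMap.smul_apply, smul_smul,
    ← Complex.ofReal_mul, Real.rpow_sub hs, Real.rpow_neg hs.le,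
    show (4 : ℝ) = (4 : ℕ) by norm_num, Real.rpow_natCast]
  congr 2
  field_simp

theorem Mu.zs_cov (h : Mu c d Λ) (hs : 0 < s) (hL : IsLor L) (hk : Measurable κ)
    (hA : ∀ p y, mdot (κ p) y = mdot p (sim s L 0 y)) (h1 : ∀ p, κ (κ' p) = p)
    (h2 : ∀ p, κ' (κ p) = p) {u : Fin k → V → V} {t : Fin k → ℝ}
    (hu : ∀ j p, u j p = t j • sim 1 L 0 (u j (κ p))) (hK : SN.Bd K)
    (ok : ∀ J, SN.Bd fun p => K p * sy (fun j => u j p) J) :
    c.bt.Phi (fun p => K (κ p) * ft g0 (κ p)) (Zs c Λ K u) = ((s ^ (-d) * ∏ j, t j : ℝ) : ℂ) •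
      c.bt.Phi (fun p => K p * ft g0 p) (Ug c.Q s L 0 (Zs c Λ K u)) := by
  have b := wt_g0.bd
  have e : ∀ μ, c.bt.Phi (fun p => K (κ p) * ft g0 (κ p))
      (c.bt.Phi (fun p => K p * sy (fun j => u j p) μ) (Λ μ gS)) = ∑ ν : Fin k → Ix,
      ((s ^ (-d) * ∏ i, L (ν i) (μ i) : ℝ) : ℂ) • c.bt.Phi (fun p => K (κ p) *
        (K p * sy (fun j => u j p) μ) * ft g0 p) (Ug c.Q s L 0 (Λ ν gS)) := fun μ => by
    rw [c.bt.mul_apply (hK.comp hk) (b.comp hk), c.bt.comm (b.comp hk) (ok μ),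
      h.key hs hL hk hA h1 h2, ← c.bt.mul_apply (hK.comp hk) (ok μ), _root_.map_sum]
    exact Finset.sum_congr rfl fun ν _ => by
      rw [map_smul, ← c.bt.mul_apply ((hK.comp hk).mul (ok μ)) b]
  simp only [Zs, _root_.map_sum, e, Finset.smul_sum]
  rw [Finset.sum_comm]
  refine Finset.sum_congr rfl fun ν _ => ?_
  rw [Phi_sum _ fun μ => ((hK.comp hk).mul (ok μ)).mul b, Phi_W hk (ug_ut hs hL) hA (ok ν),
    ← c.bt.mul_apply (hK.mul b) ((ok ν).comp hk), ← ContinuousLinearMap.smul_apply,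
    ← c.bt.smul _ ((hK.mul b).mul ((ok ν).comp hk))]
  congr 2
  funext p
  have := sy_cov hL t (fun j => u j (κ p)) ν
  simp only [← hu] at this
  calc _ = (s ^ (-d) : ℝ) * (K (κ p) * K p * ft g0 p) * ((∑ μ : Fin k → Ix, (∏ i, L (ν i) (μ i)) *
        sy (fun j => u j p) μ : ℝ) : ℂ) := by
        rw [Complex.ofReal_sum, Finset.mul_sum]
        exact Finset.sum_congr rfl fun μ _ => by push_cast; ring
    _ = _ := by rw [this]; push_cast; ring

/-- the components in the moving frame -/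
def Zf (c : Ctx D) (Λ : (Fin k → Ix) → Sch →L[ℂ] Completion D) (K : V → ℂ) (A : Fin k → Fin 4) :
    Completion D := Zs c Λ K fun j => fr (A j)

/-- admissible weights -/
structure Ad (k : ℕ) (K : V → ℂ) : Prop where
  wt : Wt K univ
  ok : ∀ (A : Fin k → Fin 4) J, SN.Bd fun p => K p * sy (fun j => fr (A j) p) J

lemma ex_ad (k : ℕ) : ∃ K, Ad k K := by
  obtain ⟨K, h1, h2⟩ := ex_wt (fun (i : (Fin k → Fin 4) × (Fin k → Ix)) p =>
    (sy (fun j => fr (i.1 j) p) i.2 : ℂ)) fun i => Complex.continuous_ofReal.comp (by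
      have := cont_fr
      unfold sy
      fun_prop)
  exact ⟨K, h1, fun A J => h2 (A, J)⟩

lemma Ad.mul {K' : V → ℂ} (h : Ad k K) (h' : Wt K' univ) : Ad k fun p => K' p * K p :=
  ⟨h'.mul h.wt, fun A J => by simpa only [mul_assoc] using h'.bd.mul (h.ok A J)⟩

theorem Mu.vc (h : Mu c d Λ) (hK : Ad k K) (A : Fin k → Fin 4) :
    Vc c (fun p => K p * ft g0 p) (Zf c Λ K A) (d / 2 + ∑ j, xw (A j))
      (d / 2 + ∑ j, yw (A j)) where
  ga w := by
    obtain ⟨l1, l2⟩ := Grp.lga w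
    have := h.zs_cov one_pos l1 (meas_gap (-w)) (κ' := gap w)
      (fun p y => by rw [l2, md_gap_l]) (fun p => by simp [gap_gap]) (fun p => by simp [gap_gap])
      (u := fun j => fr (A j)) (t := fun _ => 1) (fun j p => by rw [l2, one_smul, ← fr_gap])
      hK.wt.bd (hK.ok A)
    simp only [Real.one_rpow, Finset.prod_const_one, mul_one, Complex.ofReal_one, one_smul] at this
    exact this.symm
  sc r s hr hs := by
    obtain ⟨l1, l2⟩ := Grp.lsc hr hs
    have h0 := Br.sc_pos hr hs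
    have := h.zs_cov h0 l1 (meas_scp s r) (κ' := scp s⁻¹ r⁻¹)
      (fun p y => by rw [l2, md_scp_l]) (fun p => by simp [scp_scp _ hs.le hr.le, hr.ne', hs.ne'])
      (fun p => by simp [scp_scp _ (inv_pos.2 hs).le (inv_pos.2 hr).le, hr.ne', hs.ne'])
      (u := fun j => fr (A j)) (t := fun j => (r ^ xw (A j) * s ^ yw (A j))⁻¹)
      (fun j p => by rw [fr_scp (A j) hr hs p, ← l2, sim_smul, inv_smul_smul₀ h0.ne'])
      hK.wt.bd (hK.ok A)
    have e : √(r * s) ^ (-d) = (r ^ (d / 2))⁻¹ * (s ^ (d / 2))⁻¹ := by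
      rw [Real.sqrt_eq_rpow, ← Real.rpow_mul (mul_pos hr hs).le, Real.mul_rpow hr.le hs.le,
        show 1 / 2 * -d = -(d / 2) by ring, Real.rpow_neg hr.le, Real.rpow_neg hs.le]
    rw [Zf, this, smul_smul, ← Complex.ofReal_mul, Finset.prod_inv_distrib, Finset.prod_mul_distrib,
      ← Real.rpow_sum_of_pos hr, ← Real.rpow_sum_of_pos hs, Real.rpow_add hr, Real.rpow_add hs, e]
    refine (one_smul ℂ _).symm.trans (congrArg₂ _ ?_ rfl)
    rw [← Complex.ofReal_one]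
    congr 1
    field_simp

/-- bounded functions that vanish outside a compact subset of `S` -/
def Cp (S : Set V) (G : V → ℂ) : Prop :=
  SN.Bd G ∧ ∃ B, IsCompact B ∧ B ⊆ S ∧ ∀ p ∉ B, G p = 0

lemma Cp.mul {S : Set V} {G H : V → ℂ} (h : Cp S G) (hm : Measurable H) (hc : ContinuousOn H S) :
    Cp S fun p => G p * H p := by
  obtain ⟨hG, B, h1, h2, h3⟩ := h
  obtain ⟨C, hC⟩ := h1.exists_bound_of_continuousOn (hc.mono h2)
  obtain ⟨C', h0, hC'⟩ := hG.nonneg_bound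
  refine ⟨⟨hG.1.mul hm, C' * |C|, fun p => ?_⟩, B, h1, h2, fun p hp => by simp [h3 p hp]⟩
  by_cases hp : p ∈ B
  · simp only [norm_mul]
    exact mul_le_mul (hC' p) ((hC p hp).trans (le_abs_self C)) (norm_nonneg _) h0
  · simp only [h3 p hp, zero_mul, norm_zero]
    positivity

lemma cp_ind {S B : Set V} (h1 : IsCompact B) (h2 : B ⊆ S) {G : V → ℂ} (hG : SN.Bd G) :
    Cp S (B.indicator G) := ⟨hG.indicator h1.measurableSet, B, h1, h2,
  fun _ hp => indicator_of_notMem hp _⟩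

/-- the products of the coefficients -/
def cfs (h : Fin k → V) (A : Fin k → Fin 4) (p : V) : ℂ := (∏ j, cf (h j) (A j) p : ℝ)

lemma Cp.cfs {S : Set V} {G : V → ℂ} (hG : Cp S G) (hS : S ⊆ {p | 0 < be p}) (h : Fin k → V)
    (A : Fin k → Fin 4) : Cp S fun p => G p * cfs h A p :=
  hG.mul (Complex.measurable_ofReal.comp (Finset.measurable_prod _ fun j _ => meas_cf _ _))
    (Complex.continuous_ofReal.comp_continuousOn
      (continuousOn_finset_prod _ fun j _ => (cont_cf _ _).mono hS))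

/-- **expansion in the moving frame** -/
theorem expand (hK : Ad k K) {S : Set V} {G : V → ℂ} (hG : Cp S G) (hS : S ⊆ {p | 0 < be p})
    (h : Fin k → V) : c.bt.Phi (fun p => G p * K p) (∑ J, (sy h J : ℂ) • Λ J gS) =
      ∑ A, c.bt.Phi (fun p => G p * cfs h A p) (Zf c Λ K A) := by
  simp only [Zf, Zs, _root_.map_sum, map_smul]
  rw [Finset.sum_comm]
  refine Finset.sum_congr rfl fun J _ => ?_
  have := Phi_sum (c := c) (fun _ => 1) (fun A => (hG.cfs hS h A).1.mul (hK.ok A J)) (Λ J gS)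
  simp only [one_smul, one_mul, c.bt.mul_apply (hG.cfs hS h _).1 (hK.ok _ J)] at this
  rw [this, ← ContinuousLinearMap.smul_apply, ← c.bt.smul _ (hG.1.mul hK.wt.bd)]
  congr 2
  funext p
  obtain ⟨-, B, -, h2, h3⟩ := hG
  by_cases hp : p ∈ B
  · rw [sy_dec h J (ne_of_gt (hS (h2 hp))), Complex.ofReal_sum, Finset.sum_mul]
    exact Finset.sum_congr rfl fun A _ => by simp only [Two.cfs]; push_cast; ring
  · simp [h3 p hp]

end

end Vale.Agent.P352X.Two
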