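import Vale.Agent.P352X.Api3b
import Vale.Agent.P352X.Api4
import Vale.Agent.P352X.ST.Syn
import Mathlib.Analysis.SpecialFunctions.JapaneseBracket

/-!
# P352X: a test function with compact support whose Fourier transform has no zeros (helper21)
-/

set_option linter.all false

open MeasureTheory Set Filter Metric
open scoped SchwartzMap ComplexConjugate

namespace Vale.Agent.P352X.Two

open Vale.Agent.P352.GF Vale.Agent.P352.BW Vale.Agent.P352.H496 Vale.Agent.P352.H755
open Complex (I)

noncomputable section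

/-- the Fourier transform at a point -/
def ftp (p : V) : Sch →L[ℂ] ℂ := SchwartzMap.integralCLM ℂ volume ∘L ST.mdl (mdL p)

lemma ftp_apply (p : V) (f : Sch) : ftp p f = ft (ev f) p := by
  simp only [ftp, ContinuousLinearMap.comp_apply, SchwartzMap.integralCLM_apply, ST.mdl_apply, ft,
    ST.pw, mdL_apply, ev, mul_comm]

lemma ft_conf {A : V → V} {c : ℝ} (h : Conf A c) {p q : V} (e : ∀ z, mdot q (A z) = mdot p z)
    (f : Fn) : ft (fun z => f (A z)) p = ((c ^ 2)⁻¹ : ℝ) * ft f q := by
  have := h.sc.integral fun z => f z * Complex.exp (I * mdot q z)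
  simpa only [e, Complex.real_smul, ft] using this

lemma ft_tr (f : Fn) (a p : V) :
    ft (fun z => f (z - a)) p = Complex.exp (I * mdot p a) * ft f p := by
  rw [ft, ← integral_add_right_eq_self _ a, ft, ← integral_const_mul]
  refine integral_congr_ae (.of_forall fun z => ?_)
  simp only [add_sub_cancel_right, md_add, Complex.ofReal_add, mul_add, Complex.exp_add]
  ring

lemma ft_cnv (f g : Sch) (p : V) : ft (ev (ST.cnv volume f g)) p = ft (ev f) p * ft (ev g) p := by
  rw [← ftp_apply, (ST.clm_cnv (ftp p) f g).2, ft, ← integral_mul_const]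
  refine integral_congr_ae (.of_forall fun z => ?_)
  have := ft_tr (ev g) z p
  simp only [ftp_apply, smul_eq_mul, mul_assoc]
  rw [← this]
  rfl

lemma ft_mdl (ξ : V) (f : Sch) (p : V) : ft (ev (ST.mdl (mdL ξ) f)) p = ft (ev f) (p + ξ) := by
  refine integral_congr_ae (.of_forall fun z => ?_)
  simp only [ev, ST.mdl_apply, ST.pw, mdL_apply, md_add_l, Complex.ofReal_add, mul_add,
    Complex.exp_add]
  ring

lemma ft_refl (f : Fn) (p : V) : ft (fun z => conj (f (-z))) p = conj (ft f p) := by
  rw [ft, ft, ← integral_neg_eq_self, ← integral_conj]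
  refine integral_congr_ae (.of_forall fun z => ?_)
  simp [md_neg, ← Complex.exp_conj]

lemma norm_ch (t : ℝ) : ‖Complex.exp (I * t)‖ = 1 := by
  rw [mul_comm, Complex.norm_exp_ofReal_mul_I]

lemma cont_ft {f : Fn} (hf : IsTest f) : Continuous (ft f) := by
  obtain ⟨g, rfl⟩ := hf
  refine continuous_of_dominated (bound := fun z => ‖g z‖) (fun p => ?_)
    (fun p => .of_forall fun z => by simp [norm_ch, ev]) g.integrable.norm
    (.of_forall fun z => by fun_prop)
  exact (g.continuous.mul (by fun_prop)).aestronglyMeasurable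

lemma bd_ft {f : Fn} (hf : IsTest f) : SN.Bd (ft f) :=
  ⟨(cont_ft hf).measurable, ∫ z, ‖f z‖, fun p => (norm_integral_le_integral_norm _).trans_eq
    (by simp [norm_ch])⟩

lemma int_exp (C : ℝ) (hC : 0 ≤ C) (N : ℕ) :
    Integrable fun x : V => Real.exp (-‖x‖) * (1 + C * ‖x‖) ^ N := by
  have h := (integrable_one_add_norm (E := V) (μ := volume) (r := 5) (by norm_num)).const_mul
    ((1 + C) ^ N * (N + 5).factorial * Real.exp 1)
  refine h.mono' (by fun_prop) (.of_forall fun x => ?_)
  have h0 := norm_nonneg x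
  have h1 := Real.pow_div_factorial_le_exp (1 + ‖x‖) (by positivity) (N + 5)
  rw [div_le_iff₀ (by positivity), Real.exp_add, pow_add] at h1
  have h2 : (1 + C * ‖x‖) ^ N ≤ (1 + C) ^ N * (1 + ‖x‖) ^ N := by
    rw [← mul_pow]
    exact pow_le_pow_left₀ (by positivity) (by nlinarith) N
  rw [Real.norm_of_nonneg (by positivity), Real.exp_neg, Real.rpow_neg (by positivity),
    show (5 : ℝ) = (5 : ℕ) by norm_num, Real.rpow_natCast, ← div_eq_mul_inv, ← div_eq_inv_mul,
    div_le_div_iff₀ (by positivity) (by positivity)]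
  calc _ ≤ (1 + C) ^ N * ((1 + ‖x‖) ^ N * (1 + ‖x‖) ^ 5) := by
        rw [← mul_assoc]; gcongr
    _ ≤ (1 + C) ^ N * (Real.exp 1 * Real.exp ‖x‖ * (N + 5).factorial) := by gcongr
    _ = _ := by ring

/-- **a compactly supported test function whose Fourier transform has no zeros** -/
theorem exists_g0 : ∃ g : Sch, HasCompactSupport g ∧ ∀ p, ft (ev g) p ≠ 0 := by
  obtain ⟨φ, hφ⟩ := ST.exists_ai (volume : Measure V)
  have hs : ∀ z, φ 0 z ≠ 0 → ‖z‖ ≤ 1 := fun z hz => by
    simpa using hφ.supp 0 (subset_tsupport _ hz)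
  have hc : HasCompactSupport (φ 0) := .intro (isCompact_closedBall 0 1) fun z hz =>
    by_contra fun h => hz (by simpa using hs z h)
  have hd : Dc fun z => star (φ 0 (-z)) :=
    Api4.dc_star (Api4.dc_comp_cle (Api4.dc_of_sch _ hc) (ContinuousLinearEquiv.neg ℝ))
  set h := ST.cnv volume (φ 0) (sch fun z => star (φ 0 (-z))) with hh
  have h1 : ∀ p, ft (ev h) p = (‖ft (ev (φ 0)) p‖ ^ 2 : ℝ) := fun p => by
    rw [hh, ft_cnv, ev, ev, Api4.coe_sch hd, mul_comm, ← SN.conj_mul_self, ← ft_refl]
    rfl
  have h2 : ∀ z ∉ closedBall (0 : V) 2, h z = 0 := fun z hz => by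
    rw [hh, ST.cnv_apply]
    refine integral_eq_zero_of_ae (.of_forall fun x => by_contra fun hx => hz ?_)
    simp only [Api4.sch_apply hd, Pi.zero_apply] at hx
    have a := hs _ (left_ne_zero_of_mul hx)
    have b := hs _ (star_ne_zero.1 (right_ne_zero_of_mul hx))
    rw [norm_neg] at b
    simpa using (norm_le_norm_sub_add z x).trans (by linarith)
  have hS := ST.sint_mdl (μ := volume) (m := fun x : V => (Real.exp (-‖x‖) : ℂ)) (l := mdL)
    (by fun_prop) mdL.continuous.aestronglyMeasurable (fun N => (int_exp _ (norm_nonneg mdL) N).mono'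
      (by fun_prop) (.of_forall fun x => by
        rw [Real.norm_of_nonneg (by positivity), Complex.norm_real, Real.norm_of_nonneg
          (Real.exp_pos _).le]
        gcongr
        exact mdL.le_opNorm x)) h
  refine ⟨hS.int, .intro (isCompact_closedBall 0 2) fun z hz => ?_, fun p hp => ?_⟩
  · rw [hS.int_apply]
    simp [ST.mdl_apply, h2 z hz]
  · obtain ⟨i1, i2⟩ := hS.clm hS.int_apply (ftp p)
    simp only [map_smul, ftp_apply, ft_mdl, h1, smul_eq_mul, ← Complex.ofReal_mul, hp] at i1 i2
    have i3 := i1.re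
    simp only [RCLike.re_to_complex, Complex.ofReal_re] at i3
    rw [integral_complex_ofReal, eq_comm, Complex.ofReal_eq_zero, integral_eq_zero_iff_of_nonneg
      (fun x => mul_nonneg (Real.exp_pos _).le (sq_nonneg _)) i3] at i2
    have hk : Continuous fun x : V => Real.exp (-‖x‖) * ‖ft (ev (φ 0)) (p + x)‖ ^ 2 :=
      (by fun_prop : Continuous fun x : V => Real.exp (-‖x‖)).mul
        (((cont_ft ⟨φ 0, rfl⟩).comp (continuous_const_add p)).norm.pow 2)
    have := congrFun ((Continuous.ae_eq_iff_eq volume hk continuous_zero).1 i2) (-p)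
    simp [ft, ev, hφ.one] at this

end

end Vale.Agent.P352X.Two
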