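import Vale.Agent.P352X.R.TWO.Sd
import Vale.Agent.P352X.Api3a

/-!
# P352X: classification of the measures that are invariant under the null rotations and
homogeneous under the scalings (helper21)
-/

set_option linter.all false

open MeasureTheory Measure Set Filter
open scoped NNReal ENNReal

namespace Vale.Agent.P352X.Two

open Vale.Agent.P352.GF Vale.Agent.P352.BW

noncomputable section

lemma map_wd {X Z : Type*} [MeasurableSpace X] [MeasurableSpace Z] (ρ : Measure X) {k : X → Z}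
    (hk : Measurable k) {f : Z → ℝ≥0∞} (hf : Measurable f) :
    (ρ.withDensity fun p => f (k p)).map k = (ρ.map k).withDensity f := by
  ext s hs
  rw [map_apply hk hs, withDensity_apply _ (hk hs), withDensity_apply _ hs,
    setLIntegral_map hs hf hk]

lemma map_wd' {X Z : Type*} [MeasurableSpace X] [MeasurableSpace Z] {ρ : Measure X} {k : X → Z}
    (hk : Measurable k) {f : Z → ℝ≥0∞} (hf : Measurable f) {g : X → ℝ≥0∞} {c : ℝ}
    (e : g =ᵐ[ρ] fun p => ENNReal.ofReal c * f (k p)) :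
    (ρ.withDensity g).map k = ENNReal.ofReal c • (ρ.map k).withDensity f := by
  rw [withDensity_congr_ae e, ← map_wd ρ hk hf, ← Measure.map_smul,
    ← withDensity_smul' _ _ ENNReal.ofReal_ne_top]
  rfl

/-- conformal linear maps scale the volume -/
lemma map_conf (g : V →L[ℝ] V) {l : ℝ} (hl : 0 < l)
    (h : ∀ x y, mdot (g x) (g y) = l * mdot x y) :
    (volume : Measure V).map g = ENNReal.ofReal ((l ^ 2)⁻¹) • volume := by
  set M := LinearMap.toMatrix' (g : V →ₗ[ℝ] V) with hM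
  have e : M.transpose * Matrix.diagonal eta * M = l • Matrix.diagonal eta := by
    ext i j
    have := h (Pi.single i 1) (Pi.single j 1)
    rw [Matrix.mul_apply]
    simp only [Matrix.mul_diagonal, Matrix.transpose_apply, hM, LinearMap.toMatrix'_apply,
      Matrix.smul_apply, smul_eq_mul]
    convert this using 1
    · exact Finset.sum_congr rfl fun m _ => by
        simp only [ContinuousLinearMap.coe_coe, Pi.single_apply]; ring
    · fin_cases i <;> fin_cases j <;> simp [mdot_eq, eta, o, Matrix.diagonal]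
  have e2 := congrArg Matrix.det e
  rw [Matrix.det_mul, Matrix.det_mul, Matrix.det_transpose, Matrix.det_smul, Matrix.det_diagonal,
    hM, LinearMap.det_toMatrix'] at e2
  have e3 : ∏ i, eta i = -1 := by simp [Fin.prod_univ_four, eta, o]
  rw [e3, Fintype.card_fin] at e2
  have e4 : |LinearMap.det (g : V →ₗ[ℝ] V)| = l ^ 2 :=
    (sq_eq_sq₀ (abs_nonneg _) (by positivity)).1 (by rw [sq_abs]; linarith)
  have e5 : LinearMap.det (g : V →ₗ[ℝ] V) ≠ 0 := abs_pos.1 (e4 ▸ by positivity)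
  have := Real.map_linearMap_volume_pi_eq_smul_volume_pi e5
  rwa [abs_inv, e4] at this

lemma meas_gap (w : R2) : Measurable (gap w) := (cont_gap continuous_const continuous_id).measurable
lemma meas_scp (r s : ℝ) : Measurable (scp r s) := (cont_scp r s).measurable
lemma mu_gap (w : R2) (p : V) : mu (gap w p) = mu p := md_gap _ _ _
lemma mu_scp {r s : ℝ} (hr : 0 < r) (hs : 0 < s) (p : V) : mu (scp r s p) = r * s * mu p :=
  md_scp _ _ (mul_pos hr hs).le

/-- invariant under the null rotations, homogeneous under the scalings -/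
structure Semi (ρ : Measure V) (A B : ℝ) : Prop where
  ga : ∀ w, ρ.map (gap w) = ρ
  sc : ∀ r s, 0 < r → 0 < s → ρ.map (scp r s) = ENNReal.ofReal (r ^ A * s ^ B) • ρ

/-- finite on the compact subsets of `S` -/
def FinOn (ρ : Measure V) (S : Set V) : Prop := ∀ K, IsCompact K → K ⊆ S → ρ K < ∞

/-- the weights `p_a ^ a μ ^ b` -/
def pw2 (a b : ℝ) (p : V) : ℝ≥0∞ := ENNReal.ofReal (be p ^ a * mu p ^ b)

/-- the model measures -/
def mm (a b : ℝ) : Measure V := (volume.restrict Fc).withDensity (pw2 a b)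

lemma meas_pw2 (a b : ℝ) : Measurable (pw2 a b) := by unfold pw2; fun_prop

theorem semi_vol : Semi volume (-2) (-2) where
  ga w := by
    have := map_conf (gapL w) one_pos fun x y => by simp [md_gap]
    simpa [show (gapL w : V → V) = gap w from funext fun z => gapL_apply z w] using this
  sc r s hr hs := by
    have := map_conf (scpL r s) (mul_pos hr hs) fun x y => md_scp x y (mul_pos hr hs).le
    rw [← Real.mul_rpow hr.le hs.le, Real.rpow_neg (mul_pos hr hs).le, Real.rpow_two]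
    exact this

variable {ρ ρ' : Measure V} {A B : ℝ}

lemma Semi.restrict (h : Semi ρ A B) {S : Set V} (hS : MeasurableSet S)
    (h1 : ∀ w p, gap w p ∈ S ↔ p ∈ S) (h2 : ∀ r s p, 0 < r → 0 < s → (scp r s p ∈ S ↔ p ∈ S)) :
    Semi (ρ.restrict S) A B where
  ga w := by
    have := restrict_map (μ := ρ) (meas_gap w) hS
    rw [h.ga, show gap w ⁻¹' S = S from Set.ext (h1 w)] at this
    exact this.symm
  sc r s hr hs := by
    have := restrict_map (μ := ρ) (meas_scp r s) hS
    rw [h.sc r s hr hs, show scp r s ⁻¹' S = S from Set.ext fun p => h2 r s p hr hs,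
      restrict_smul] at this
    exact this.symm

lemma Semi.fc (h : Semi ρ A B) : Semi (ρ.restrict Fc) A B :=
  h.restrict meas_Fc (fun w p => Fc_gap p w) fun _ _ _ hr hs => Fc_scp hr hs

lemma Semi.wd (h : Semi ρ A B) (hc : ∀ᵐ p ∂ρ, p ∈ Fc) (a b : ℝ) :
    Semi (ρ.withDensity (pw2 a b)) (A - b) (B - a - b) where
  ga w := by
    have := map_wd ρ (meas_gap w) (meas_pw2 a b)
    rwa [h.ga, show (fun p => pw2 a b (gap w p)) = pw2 a b from
      funext fun p => by simp only [pw2, be_gap, mu_gap]] at this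
  sc r s hr hs := by
    have e : pw2 a b =ᵐ[ρ] fun p => ENNReal.ofReal (r ^ (-b) * s ^ (-a - b)) *
        pw2 a b (scp r s p) := by
      filter_upwards [hc] with p hp
      obtain ⟨h1, h2⟩ := (mem_Fc p).1 hp
      simp only [pw2, be_scp, mu_scp hr hs]
      rw [← ENNReal.ofReal_mul (by positivity), Real.mul_rpow hs.le h1.le,
        Real.mul_rpow (mul_pos hr hs).le h2.le, Real.mul_rpow hr.le hs.le, Real.rpow_sub hs,
        Real.rpow_neg hr.le, Real.rpow_neg hs.le]
      congr 1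
      field_simp
    rw [map_wd' (meas_scp r s) (meas_pw2 a b) e, h.sc r s hr hs, withDensity_smul_measure,
      smul_smul, ← ENNReal.ofReal_mul (by positivity)]
    congr 2
    simp only [Real.rpow_sub hs, Real.rpow_sub hr, Real.rpow_neg hr.le, Real.rpow_neg hs.le]
    field_simp

lemma FinOn.wd (h : FinOn ρ Fc) (a b : ℝ) : FinOn (ρ.withDensity (pw2 a b)) Fc := by
  intro K hK hF
  have hc : ContinuousOn (fun p => be p ^ a * mu p ^ b) K :=
    ((by fun_prop : Continuous be).continuousOn.rpow_const fun p hp =>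
      .inl ((mem_Fc p).1 (hF hp)).1.ne').mul
    ((by fun_prop : Continuous mu).continuousOn.rpow_const fun p hp =>
      .inl ((mem_Fc p).1 (hF hp)).2.ne')
  obtain ⟨C, hC⟩ := hK.bddAbove_image hc
  rw [withDensity_apply _ hK.measurableSet]
  exact setLIntegral_lt_top_of_le_nnreal (h K hK hF).ne ⟨C.toNNReal, fun p hp =>
    ENNReal.ofReal_le_ofReal (hC ⟨p, hp, rfl⟩)⟩

lemma wd_wd (hc : ∀ᵐ p ∂ρ, p ∈ Fc) (a b : ℝ) :
    (ρ.withDensity (pw2 a b)).withDensity (pw2 (-a) (-b)) = ρ := by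
  rw [← withDensity_mul _ (meas_pw2 _ _) (meas_pw2 _ _)]
  refine (withDensity_congr_ae ?_).trans withDensity_one
  filter_upwards [hc] with p hp
  obtain ⟨h1, h2⟩ := (mem_Fc p).1 hp
  simp only [pw2, Pi.mul_apply, Pi.one_apply]
  rw [← ENNReal.ofReal_mul (by positivity), Real.rpow_neg h1.le, Real.rpow_neg h2.le,
    ← ENNReal.ofReal_one]
  congr 1
  field_simp

/-- the transverse velocity -/
def vv (p : V) : R2 := (be p)⁻¹ • tx p

lemma meas_vv : Measurable vv := by unfold vv; fun_prop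

lemma vv_gap (w : R2) {p : V} (hp : 0 < be p) : vv (gap w p) = w + vv p := by
  simp [vv, smul_smul, hp.ne', add_comm]

lemma vv_scp (r s : ℝ) (p : V) : vv (scp r s p) = (Real.sqrt (r * s) / s) • vv p := by
  simp only [vv, be_scp, tx_scp, smul_smul]
  congr 1
  ring

/-- the point with given `p_a`, `μ` and velocity -/
def pv (b m : ℝ) (v : R2) : V := pt ((m / b + b * d2 v v) / 2) b (b • v)

lemma pv_self {p : V} (hp : 0 < be p) : pv (be p) (mu p) (vv p) = p :=
  null_ext (by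
    simp only [pv, vv, al_pt, mu_eq, d2_smul, d2_smul_l]
    field_simp
    ring) (by simp [pv]) (by simp [pv, vv, smul_smul, hp.ne'])

lemma mu_pv {b : ℝ} (hb : b ≠ 0) (m : ℝ) (v : R2) : mu (pv b m v) = m := by
  simp only [pv, mu_pt, d2_smul, d2_smul_l]
  field_simp
  ring

/-- group coordinates on the cone -/
def th (p : V) : (ℝ × ℝ) × R2 := ((Real.log (be p), Real.log (mu p)), vv p)

def thi (x : (ℝ × ℝ) × R2) : V := pv (Real.exp x.1.1) (Real.exp x.1.2) x.2

lemma meas_th : Measurable th := by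
  unfold th vv; fun_prop

lemma cont_thi : Continuous thi := by
  unfold thi pv; fun_prop (disch := intros; positivity)

lemma thi_th {p : V} (hp : p ∈ Fc) : thi (th p) = p := by
  obtain ⟨h1, h2⟩ := (mem_Fc p).1 hp
  simp only [thi, th, Real.exp_log h1, Real.exp_log h2, pv_self h1]

lemma thi_mem (x : (ℝ × ℝ) × R2) : thi x ∈ Fc := by
  rw [mem_Fc, thi, mu_pv (Real.exp_pos _).ne']
  exact ⟨by simp [pv, Real.exp_pos], Real.exp_pos _⟩

/-- the character of the scalings on the velocities -/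
def l0 : ℝ × ℝ →L[ℝ] ℝ := (1 / 2 : ℝ) • ContinuousLinearMap.snd ℝ ℝ ℝ - ContinuousLinearMap.fst ℝ ℝ ℝ

lemma th_act (x : (ℝ × ℝ) × R2) {p : V} (hp : p ∈ Fc) :
    th (gap x.2 (scp (Real.exp (x.1.2 - x.1.1)) (Real.exp x.1.1) p)) = sdm l0 x (th p) := by
  obtain ⟨h1, h2⟩ := (mem_Fc p).1 hp
  have e : Real.exp (x.1.2 - x.1.1) * Real.exp x.1.1 = Real.exp x.1.2 := by
    rw [← Real.exp_add, sub_add_cancel]
  simp only [th, sdm, be_gap, mu_gap, be_scp, mu_scp (Real.exp_pos _) (Real.exp_pos _), e]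
  rw [vv_gap _ (by simp [h1, Real.exp_pos]), vv_scp, e, Real.log_mul (Real.exp_pos _).ne' h1.ne',
    Real.log_mul (Real.exp_pos _).ne' h2.ne', Real.log_exp, Real.log_exp, ← Real.exp_half,
    ← Real.exp_sub]
  congr 4
  simp [l0]
  ring

lemma map_th (h : Semi ρ 0 0) (hc : ∀ᵐ p ∂ρ, p ∈ Fc) (hf : FinOn ρ Fc) :
    IsFiniteMeasureOnCompacts (ρ.map th) ∧ (∀ x, (ρ.map th).map (sdm l0 x) = ρ.map th) ∧
      (ρ.map th).map thi = ρ := by
  refine ⟨⟨fun K hK => ?_⟩, fun x => ?_, ?_⟩
  · rw [map_apply meas_th hK.measurableSet]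
    refine (measure_mono_ae ?_).trans_lt (hf _ (hK.image cont_thi) ?_)
    · filter_upwards [hc] with p hp hp'
      exact ⟨_, hp', thi_th hp⟩
    · rintro _ ⟨x, -, rfl⟩
      exact thi_mem x
  · have hm : Measurable (sdm (F := R2) l0 x) := by unfold sdm; fun_prop
    have e := h.sc _ _ (Real.exp_pos (x.1.2 - x.1.1)) (Real.exp_pos x.1.1)
    rw [Real.rpow_zero, Real.rpow_zero, one_mul, ENNReal.ofReal_one, one_smul] at e
    conv_rhs => rw [← h.ga x.2, ← e]
    rw [map_map hm meas_th, map_map (meas_gap _) (meas_scp _ _),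
      map_map meas_th ((meas_gap _).comp (meas_scp _ _))]
    refine Measure.map_congr ?_
    filter_upwards [hc] with p hp
    exact (th_act x hp).symm
  · rw [map_map cont_thi.measurable meas_th]
    refine (Measure.map_congr ?_).trans Measure.map_id
    filter_upwards [hc] with p hp
    exact thi_th hp

lemma ae_wd (hc : ∀ᵐ p ∂ρ, p ∈ Fc) (f : V → ℝ≥0∞) : ∀ᵐ p ∂ρ.withDensity f, p ∈ Fc :=
  withDensity_absolutelyContinuous ρ f hc

/-- **Uniqueness** on the open cone. -/
theorem uq (h : Semi ρ A B) (hc : ∀ᵐ p ∂ρ, p ∈ Fc) (hf : FinOn ρ Fc) (h' : Semi ρ' A B)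
    (hc' : ∀ᵐ p ∂ρ', p ∈ Fc) (hf' : FinOn ρ' Fc) (h0 : ρ' ≠ 0) : ∃ κ : ℝ≥0, ρ = κ • ρ' := by
  have a := h.wd hc (B - A) A
  have a' := h'.wd hc' (B - A) A
  rw [sub_self, show B - (B - A) - A = 0 by ring] at a a'
  obtain ⟨i1, i2, i3⟩ := map_th a (ae_wd hc _) (hf.wd _ _)
  obtain ⟨j1, j2, j3⟩ := map_th a' (ae_wd hc' _) (hf'.wd _ _)
  obtain ⟨κ, e⟩ := uq_sd l0 _ _ i2 j2 fun hz => h0 (by
    rw [← wd_wd hc' (B - A) A, ← j3, hz, Measure.map_zero, withDensity_zero_left])
  refine ⟨κ, ?_⟩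
  rw [← wd_wd hc (B - A) A, ← i3, e, Measure.map_smul, j3]
  conv_rhs => rw [← wd_wd hc' (B - A) A]
  exact withDensity_smul_measure (κ : ℝ≥0∞) _

lemma ae_fc (ρ : Measure V) : ∀ᵐ p ∂ρ.restrict Fc, p ∈ Fc := ae_restrict_mem meas_Fc

lemma mm_ne (a b : ℝ) : mm a b ≠ 0 := fun hz => by
  have := wd_wd (ae_fc volume) a b
  rw [show (volume.restrict Fc).withDensity (pw2 a b) = 0 from hz, withDensity_zero_left] at this
  exact isOpen_Fc.measure_ne_zero volume ⟨_, thi_mem 0⟩ (restrict_eq_zero.1 this.symm)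

lemma FinOn.restrict {S : Set V} (h : FinOn ρ S) (T : Set V) : FinOn (ρ.restrict T) S :=
  fun K hK hS => (restrict_le_self K).trans_lt (h K hK hS)

/-- **Classification** on the open cone. -/
theorem Semi.eq_mm (h : Semi ρ A B) (hf : FinOn ρ Fc) :
    ∃ κ : ℝ≥0, ρ.restrict Fc = κ • mm (A - B) (-A - 2) := by
  have a := semi_vol.fc.wd (ae_fc _) (A - B) (-A - 2)
  rw [show -2 - (-A - 2) = A by ring, show -2 - (A - B) - (-A - 2) = B by ring] at a
  exact uq h.fc (ae_fc _) (hf.restrict _) a (ae_wd (ae_fc _) _)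
    (FinOn.wd (FinOn.restrict (fun K hK _ => hK.measure_lt_top) _) _ _) (mm_ne _ _)

/-! ### vanishing -/

def box (n : ℕ) (J : Set ℝ) : Set V := {p | be p ∈ Icc ((n : ℝ) + 1)⁻¹ (n + 1) ∧ mu p ∈ J}

lemma meas_box (n : ℕ) {J : Set ℝ} (hJ : MeasurableSet J) : MeasurableSet (box n J) :=
  ((by fun_prop : Measurable be) measurableSet_Icc).inter ((by fun_prop : Measurable mu) hJ)

lemma box_pos {n : ℕ} {J : Set ℝ} {p : V} (hp : p ∈ box n J) : 0 < be p :=
  lt_of_lt_of_le (by positivity) hp.1.1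

lemma tile (h : Semi ρ A B) (hf : FinOn ρ {p | 0 < be p}) (n : ℕ) {J : Set ℝ}
    (hJ : MeasurableSet J) {R : ℝ} (hR : J ⊆ Icc 0 R) :
    ∃ a : ℝ≥0, (ρ.restrict (box n J)).map vv = a • volume := by
  haveI : IsFiniteMeasureOnCompacts ((ρ.restrict (box n J)).map vv) := ⟨fun K hK => by
    rw [map_apply meas_vv hK.measurableSet, restrict_apply' (meas_box n hJ)]
    have hc : ContinuousOn (fun x : (ℝ × ℝ) × R2 => pv x.1.1 x.1.2 x.2)
        ((Icc ((n : ℝ) + 1)⁻¹ (n + 1) ×ˢ Icc 0 R) ×ˢ K) := by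
      unfold pv
      have : ∀ x ∈ (Icc ((n : ℝ) + 1)⁻¹ (n + 1) ×ˢ Icc (0 : ℝ) R) ×ˢ K, x.1.1 ≠ 0 := fun x hx =>
        (lt_of_lt_of_le (by positivity) hx.1.1.1).ne'
      fun_prop (disch := first | exact this | (intros; norm_num))
    refine (measure_mono ?_).trans_lt
      (hf _ (((isCompact_Icc.prod isCompact_Icc).prod hK).image_of_continuousOn hc) ?_)
    · exact fun p hp => ⟨((be p, mu p), vv p), ⟨⟨hp.2.1, hR hp.2.2⟩, hp.1⟩, pv_self (box_pos hp.2)⟩
    · rintro _ ⟨x, hx, rfl⟩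
      simpa [pv] using lt_of_lt_of_le (by positivity) hx.1.1.1⟩
  haveI : IsAddLeftInvariant ((ρ.restrict (box n J)).map vv) := ⟨fun w => by
    have e := restrict_map (μ := ρ) (meas_gap w) (meas_box n hJ)
    rw [h.ga, show gap w ⁻¹' box n J = box n J from Set.ext fun p => by simp [box, mu_gap]] at e
    conv_rhs => rw [e]
    rw [map_map (measurable_const_add w) meas_vv, map_map meas_vv (meas_gap w)]
    refine Measure.map_congr ?_
    filter_upwards [ae_restrict_mem (meas_box n hJ)] with p hp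
    exact (vv_gap w (box_pos hp)).symm⟩
  exact ⟨_, isAddLeftInvariant_eq_smul _ volume⟩

/-- **Vanishing** by scaling. -/
theorem Semi.kill (h : Semi ρ A B) (hf : FinOn ρ {p | 0 < be p}) {r : ℝ} (hr : 0 < r)
    (hA : r ^ (A + 1) < 1) {J : Set ℝ} (hJ : MeasurableSet J) {R : ℝ} (hR : J ⊆ Icc 0 R)
    (hs : ∀ m ∈ J, r * m ∈ J) : ρ {p | 0 < be p ∧ mu p ∈ J} = 0 := by
  have key : ∀ n, ρ (box n J) = 0 := fun n => by
    have hJ' : MeasurableSet ((r * ·) ⁻¹' J) := measurable_const_mul r hJ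
    obtain ⟨a, e⟩ := tile h hf n hJ hR
    obtain ⟨a', e'⟩ := tile h hf n hJ' (R := R / r) fun m hm =>
      ⟨(mul_nonneg_iff_of_pos_left hr).1 (hR hm).1, (le_div_iff₀' hr).2 (hR hm).2⟩
    have e1 := restrict_map (μ := ρ) (meas_scp r 1) (meas_box n hJ)
    rw [h.sc r 1 hr one_pos, show scp r 1 ⁻¹' box n J = box n ((r * ·) ⁻¹' J) from
      Set.ext fun p => by simp [box, mu_scp hr one_pos], restrict_smul] at e1
    have e2 := congrArg (Measure.map vv) e1
    have hm : Measurable fun v : R2 => Real.sqrt r • v := by fun_prop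
    rw [Measure.map_smul, e, map_map meas_vv (meas_scp _ _), show vv ∘ scp r 1 =
      (fun v => Real.sqrt r • v) ∘ vv from funext fun p => by simp [vv_scp],
      ← map_map hm meas_vv, e', Measure.map_smul,
      map_addHaar_smul _ (Real.sqrt_pos.2 hr).ne'] at e2
    have hQ : (volume : Measure R2) (Icc 0 1) = 1 := by simp [Real.volume_Icc_pi]
    have e3 := congrArg (fun m : Measure R2 => (m (Icc 0 1)).toReal) e2
    have le : (a • volume : Measure R2) ≤ a' • volume := by
      rw [← e, ← e']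
      have : box n J ⊆ box n ((r * ·) ⁻¹' J) := fun p hp => ⟨hp.1, hs _ hp.2⟩
      exact Measure.map_mono (restrict_mono this le_rfl) meas_vv
    have le' := le (Icc 0 1)
    simp only [Measure.smul_apply, hQ, smul_eq_mul, mul_one, ENNReal.smul_def, ENNReal.toReal_mul,
      ENNReal.coe_toReal, Real.one_rpow, ENNReal.coe_le_coe, Module.finrank_fin_fun,
      Real.sq_sqrt hr.le, abs_of_pos (inv_pos.2 hr), ENNReal.toReal_ofReal (inv_pos.2 hr).le,
      ENNReal.toReal_ofReal (Real.rpow_pos_of_pos hr A).le] at e3 le'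
    have ha : a = 0 := by
      have h1 : (a : ℝ) ≤ a' := le'
      rw [Real.rpow_add hr, Real.rpow_one] at hA
      have h2 : (a' : ℝ) = r ^ A * r * a := by field_simp at e3; linarith
      exact NNReal.coe_eq_zero.1 (by nlinarith [a.2])
    have := congrArg (fun m : Measure R2 => m univ) e
    simpa [ha, map_apply meas_vv] using this
  refine measure_mono_null (fun p hp => ?_) (measure_iUnion_null key)
  obtain ⟨n, hn⟩ := exists_nat_gt (max (be p) (be p)⁻¹)
  have h1 := (le_max_left _ _).trans_lt hn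
  have h2 := (le_max_right _ _).trans_lt hn
  exact mem_iUnion.2 ⟨n, ⟨inv_le_of_inv_le₀ hp.1 (by linarith), by linarith⟩, hp.2⟩

/-- low dimension: the measure vanishes -/
theorem Semi.zero (h : Semi ρ A B) (hf : FinOn ρ {p | 0 < be p})
    (hc : ∀ᵐ p ∂ρ, 0 < be p ∧ 0 ≤ mu p) (hA : -1 < A) : ρ = 0 := by
  have key : ∀ n : ℕ, ρ {p | 0 < be p ∧ mu p ∈ Icc (0 : ℝ) n} = 0 := fun n =>
    h.kill hf (r := 1 / 2) (by norm_num) (Real.rpow_lt_one (by norm_num) (by norm_num) (by linarith))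
      measurableSet_Icc subset_rfl fun m hm => ⟨by linarith [hm.1], by linarith [hm.1, hm.2]⟩
  refine measure_univ_eq_zero.1 (le_antisymm ?_ bot_le)
  refine (measure_mono_ae ?_).trans (measure_iUnion_null key).le
  filter_upwards [hc] with p hp _
  obtain ⟨n, hn⟩ := exists_nat_gt (mu p)
  exact mem_iUnion.2 ⟨n, hp.1, hp.2, hn.le⟩

/-- **Classification**: high dimension -/
theorem Semi.cls (h : Semi ρ A B) (hf : FinOn ρ {p | 0 < be p})
    (hc : ∀ᵐ p ∂ρ, 0 < be p ∧ 0 ≤ mu p) (hA : A < -1) :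
    ∃ κ : ℝ≥0, ρ = κ • mm (A - B) (-A - 2) := by
  have key := h.kill hf (r := 2) two_pos (Real.rpow_lt_one_of_one_lt_of_neg one_lt_two (by linarith))
    (measurableSet_singleton 0) (R := 0) (by simp) (by simp)
  obtain ⟨κ, e⟩ := h.eq_mm fun K hK hF => hf K hK fun p hp => ((mem_Fc p).1 (hF hp)).1
  refine ⟨κ, (restrict_eq_self_of_ae_mem ?_).symm.trans e⟩
  filter_upwards [hc, measure_eq_zero_iff_ae_notMem.1 key] with p hp hp'
  exact (mem_Fc p).2 ⟨hp.1, lt_of_le_of_ne hp.2 fun e => hp' ⟨hp.1, e.symm⟩⟩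

end

end Vale.Agent.P352X.Two
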