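import Vale.Agent.P352X.R.TWO.Ft
import Vale.Agent.P352X.R.TWO.Uq
import Vale.Agent.P352X.R.BAS
import Vale.Agent.P352X.R.GRP
import Vale.Agent.P352X.Api2
import Vale.Agent.P352X.Api1

/-!
# P352X: the two point measure of a covariant distribution (helper21)
-/

set_option linter.all false

open MeasureTheory Measure Set Filter
open scoped SchwartzMap ComplexConjugate NNReal ENNReal

namespace Vale.Agent.P352X.Two

open Vale.Agent.P352.GF Vale.Agent.P352.BW Vale.Agent.P352.H496 Vale.Agent.P352.H755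
open Vale.Agent.P352.H246 (In)
open UniformSpace (Completion)
open Complex (I)

noncomputable section

lemma in_iff {f : Fn} : In univ f ↔ Dc f :=
  ⟨fun h => ⟨Ap.sw_smooth h.1, h.2.1⟩, fun h => ⟨Ap.dc_sw h, h.2, subset_univ _⟩⟩

lemma in_conf {A : V → V} {l : ℝ} (h : Conf A l) {f : Fn} (hf : In univ f) :
    In univ fun z => f (A z) := in_iff.2 (Api4.dc_comp_cle (in_iff.1 hf) h.cle)

lemma test_conf {A : V → V} {l : ℝ} (h : Conf A l) {f : Fn} (hf : IsTest f) :
    IsTest fun z => f (A z) := Ap.sw_cle h.cle hf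

/-- the reference test function -/
def g0 : Fn := ev exists_g0.choose

lemma g0_in : In univ g0 := ⟨⟨_, rfl⟩, exists_g0.choose_spec.1, subset_univ _⟩
lemma g0_ne (p : V) : ft g0 p ≠ 0 := exists_g0.choose_spec.2 p

/-- the weight `|F|^2` -/
def sq2 (F : V → ℂ) (p : V) : ℝ≥0∞ := ENNReal.ofReal (‖F p‖ ^ 2)

lemma meas_sq2 {F : V → ℂ} (h : Measurable F) : Measurable (sq2 F) := by unfold sq2; fun_prop

lemma cont_k : Continuous fun p => (ft g0 p)⁻¹ := (cont_ft g0_in.1).inv₀ g0_ne

lemma sq2_mul (F G : V → ℂ) : sq2 F * sq2 G = sq2 fun p => F p * G p := by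
  funext p
  simp only [sq2, Pi.mul_apply, norm_mul, mul_pow]
  rw [ENNReal.ofReal_mul (sq_nonneg _)]

lemma wd_sq2 (ρ : Measure V) {F G : V → ℂ} (hF : Measurable F) (hG : Measurable G) :
    (ρ.withDensity (sq2 F)).withDensity (sq2 G) = ρ.withDensity (sq2 fun p => F p * G p) := by
  rw [← withDensity_mul _ (meas_sq2 hF) (meas_sq2 hG), sq2_mul]

lemma sq2_one : sq2 (fun _ => 1) = 1 := funext fun p => by simp [sq2]

variable {D : Type*} [NormedAddCommGroup D] [InnerProductSpace ℂ D] {c : Ctx D}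

/-- the two point measure -/
def rho (c : Ctx D) (v : Completion D) : Measure V :=
  (c.nu v).withDensity (sq2 fun p => (ft g0 p)⁻¹)

lemma rho_fin (v : Completion D) (S : Set V) : FinOn (rho c v) S := fun K hK _ => by
  haveI : IsLocallyFiniteMeasure (rho c v) :=
    IsLocallyFiniteMeasure.withDensity_ofReal (cont_k.norm.pow 2)
  exact hK.measure_lt_top

lemma nu_eq {v w : Completion D} {F : V → ℂ} (hF : SN.Bd F)
    (h : c.bt.Phi (ft g0) w = c.bt.Phi F v) : c.nu w = (rho c v).withDensity (sq2 F) := by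
  have e := congrArg (fun u => (c.nu u).withDensity (sq2 fun p => (ft g0 p)⁻¹)) h
  simp only [Ctx.nu, c.bt.nu_Phi hF, c.bt.nu_Phi (bd_ft g0_in.1)] at e
  change (withDensity _ (sq2 _)).withDensity _ = (withDensity _ (sq2 _)).withDensity _ at e
  rw [wd_sq2 _ (bd_ft g0_in.1).1 cont_k.measurable, wd_sq2 _ hF.1 cont_k.measurable] at e
  simp only [mul_inv_cancel₀ (g0_ne _), sq2_one, withDensity_one] at e
  rw [rho, wd_sq2 _ cont_k.measurable hF.1, Ctx.nu, e]
  simp only [mul_comm]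

lemma nu_W {W : Completion D →L[ℂ] Completion D}
    (hW : W ∈ unitary (Completion D →L[ℂ] Completion D)) {A k : V → V} (hk : Measurable k)
    (h : ∀ y, W * Ut c.Q y = Ut c.Q (A y) * W) (hA : ∀ p y, mdot (k p) y = mdot p (A y))
    (v : Completion D) : (c.nu (W v)).map k = c.nu v :=
  c.bt.nu_cov c.bt SN.isPair_mdot hk hA fun y => by
    rw [← ContinuousLinearMap.mul_apply (Ut c.Q (A y)), ← h, ContinuousLinearMap.mul_apply,
      inner_unitary hW]

lemma Phi_W {W : Completion D →L[ℂ] Completion D} {A k : V → V} (hk : Measurable k)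
    (h : ∀ y, W * Ut c.Q y = Ut c.Q (A y) * W) (hA : ∀ p y, mdot (k p) y = mdot p (A y))
    {F : V → ℂ} (hF : SN.Bd F) (v : Completion D) :
    W (c.bt.Phi F v) = c.bt.Phi (fun p => F (k p)) (W v) :=
  c.bt.cov c.bt SN.isPair_mdot hk hA W (fun y => by
    rw [← ContinuousLinearMap.mul_apply, h, ContinuousLinearMap.mul_apply]) hF

/-- covariance of the two point measure -/
lemma rho_map {W : Completion D →L[ℂ] Completion D}
    (hW : W ∈ unitary (Completion D →L[ℂ] Completion D)) {A k k' : V → V} {l t : ℝ}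
    (hc : Conf A l) (ht : 0 < t) (hk : Measurable k) (hk' : Measurable k')
    (h : ∀ y, W * Ut c.Q y = Ut c.Q (A y) * W) (hA : ∀ p y, mdot (k p) y = mdot p (A y))
    (h1 : ∀ p, k (k' p) = p) (h2 : ∀ p, k' (k p) = p) {u v v' : Completion D}
    (e : c.bt.Phi (ft g0) u = c.bt.Phi (ft fun z => g0 (A z)) v) (e' : W u = (t : ℂ) • v') :
    (rho c v').map k = ENNReal.ofReal (((t * l ^ 2) ^ 2)⁻¹) • rho c v := by
  have hl := hc.pos
  have a := nu_W hW hk h hA u
  have m0 := (bd_ft g0_in.1).1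
  have m1 : Measurable fun p => (ft g0 (k' p))⁻¹ := cont_k.measurable.comp hk'
  rw [e', Ctx.nu, c.bt.nu_smul, Measure.map_smul, nu_eq (bd_ft (test_conf hc g0_in.1)) e] at a
  have b := map_wd' (ρ := c.nu v') hk (meas_sq2 m1) (g := sq2 fun p => (ft g0 p)⁻¹)
    (c := (t ^ 2)⁻¹ * t ^ 2) (.of_forall fun p => by simp [sq2, h2, ht.ne'])
  rw [ENNReal.ofReal_mul (by positivity), mul_smul, ← withDensity_smul_measure,
    show ENNReal.ofReal (t ^ 2) • (c.nu v').map k = ‖(t : ℂ)‖₊ ^ 2 • (c.nu v').map k by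
      rw [ENNReal.ofReal, ← ENNReal.smul_def]
      congr 1
      ext
      simp [Real.coe_toNNReal _ (sq_nonneg t)], a,
    wd_sq2 _ (bd_ft (test_conf hc g0_in.1)).1 m1] at b
  rw [rho, b, show (sq2 fun p => ft (fun z => g0 (A z)) p * (ft g0 (k' p))⁻¹) =
    fun _ => ENNReal.ofReal (((l ^ 2) ^ 2)⁻¹) from funext fun p => by
      rw [sq2, ft_conf hc (q := k' p) fun z => by rw [← hA, h1], mul_assoc,
        mul_inv_cancel₀ (g0_ne _), mul_one, Complex.norm_real, Real.norm_eq_abs, sq_abs, inv_pow],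
    withDensity_const, smul_smul, ← ENNReal.ofReal_mul (by positivity), mul_pow, mul_inv]

lemma md_gap_l (w : R2) (p y : V) : mdot (gap (-w) p) y = mdot p (gap w y) := by
  rw [← md_gap _ _ w, gap_gap, add_neg_cancel, gap_zero]

/-- covariant distributions -/
structure Cv (c : Ctx D) (φ : Fn → Completion D) (x y : ℝ) : Prop where
  rel : ∀ f, In univ f → c.bt.Phi (ft g0) (φ f) = c.bt.Phi (ft f) (φ g0)
  rot : ∀ w, Ga c.Q w (φ fun z => g0 (gap w z)) = φ g0
  sca : ∀ r s, 0 < r → 0 < s →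
    Usc c.Q r s (φ fun z => g0 (scp r s z)) = ((r ^ x * s ^ y : ℝ) : ℂ) • φ g0
  perp : inner ℂ c.Om (φ g0) = 0

variable {φ : Fn → Completion D} {x y : ℝ}

theorem Cv.semi (h : Cv c φ x y) : Semi (rho c (φ g0)) (-2 * y - 4) (-2 * x - 4) where
  ga w := by
    have := rho_map ((grp_row c).uni _ _ _) (conf_gap (-w)) one_pos (meas_gap (- -w)) (meas_gap (-w))
      ((grp_row c).ga_ut (-w)) (md_gap_l (-w)) (fun p => by simp [gap_gap])
      (fun p => by simp [gap_gap]) (h.rel _ (in_conf (conf_gap (-w)) g0_in))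
      ((h.rot (-w)).trans (by simp : φ g0 = ((1 : ℝ) : ℂ) • φ g0))
    simpa using this
  sc r s hr hs := by
    have := rho_map ((grp_row c).uni _ _ _) (conf_scp hs hr) (t := s ^ x * r ^ y) (by positivity)
      (meas_scp r s) (meas_scp r⁻¹ s⁻¹) (fun z => (grp_row c).sc_ut s r z hs hr)
      (fun p z => md_scp_l p z) (fun p => by simp [scp_scp _ hr.le hs.le, hr.ne', hs.ne'])
      (fun p => by simp [scp_scp _ (inv_pos.2 hr).le (inv_pos.2 hs).le, hr.ne', hs.ne'])
      (h.rel _ (in_conf (conf_scp hs hr) g0_in)) (h.sca s r hs hr)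
    rw [this]
    congr 2
    rw [Real.rpow_sub hr, Real.rpow_sub hs, mul_comm (-2), mul_comm (-2), Real.rpow_mul hr.le,
      Real.rpow_mul hs.le, Real.rpow_neg (by positivity), Real.rpow_neg (by positivity),
      Real.rpow_two, Real.rpow_two, show (4 : ℝ) = (4 : ℕ) by norm_num, Real.rpow_natCast,
      Real.rpow_natCast]
    field_simp

lemma rho_ae {v : Completion D} (h : inner ℂ c.Om v = 0) :
    ∀ᵐ p ∂rho c v, 0 < be p ∧ 0 ≤ mu p :=
  withDensity_absolutelyContinuous _ _ (by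
    filter_upwards [Br.ae_be_pos c h, (bas_thm c).cone v] with p h1 h2 using ⟨h1, h2.2⟩)

theorem Cv.zero (h : Cv c φ x y) (hy : y < -3 / 2) {f : Fn} (hf : IsTest f) {v : Completion D}
    (e : c.bt.Phi (ft g0) v = c.bt.Phi (ft f) (φ g0)) : v = 0 := by
  have a := nu_eq (bd_ft hf) e
  rw [h.semi.zero (rho_fin _ _) (rho_ae h.perp) (by linarith), withDensity_zero_left] at a
  have := c.bt.nu_univ v
  rw [show c.bt.nu v = 0 from a] at this
  simpa using this.symm

/-- **Classification of the two point measures.** -/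
theorem Cv.cls (h : Cv c φ x y) (hy : -3 / 2 < y) :
    ∃ κ : ℝ≥0, rho c (φ g0) = κ • mm (2 * x - 2 * y) (2 * y + 2) := by
  have := h.semi.cls (rho_fin _ _) (rho_ae h.perp) (by linarith)
  rwa [show -2 * y - 4 - (-2 * x - 4) = 2 * x - 2 * y by ring,
    show -(-2 * y - 4) - 2 = 2 * y + 2 by ring] at this

/-- the basic relation for tempered translation covariant distributions -/
theorem rel_clm (Λ : Sch →L[ℂ] Completion D) {f g : Sch} {u v : Completion D}
    (hu : ∀ y, g y ≠ 0 → Λ (ST.tsl y f) = Ut c.Q y u)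
    (hv : ∀ y, f y ≠ 0 → Λ (ST.tsl y g) = Ut c.Q y v) :
    c.bt.Phi (ft (ev g)) u = c.bt.Phi (ft (ev f)) v := by
  have key : ∀ {f g : Sch} {u : Completion D}, (∀ y, g y ≠ 0 → Λ (ST.tsl y f) = Ut c.Q y u) →
      c.bt.Phi (ft (ev g)) u = Λ (ST.cnv volume g f) := fun {f g u} hu => by
    rw [(ST.clm_cnv Λ g f).2]
    refine (c.bt.smear SN.isPair_mdot continuous_id g.integrable u).2.symm.trans ?_
    refine integral_congr_ae (.of_forall fun y => ?_)
    by_cases hy : g y = 0
    · simp [hy]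
    · simp [hu y hy]
  rw [key hu, key hv, ST.cnv_comm]

end

end Vale.Agent.P352X.Two
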