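import Mathlib.MeasureTheory.Measure.Haar.Unique
import Mathlib.Analysis.SpecialFunctions.Exp

/-!
# P352X: uniqueness of invariant measures on the groups `E ⋉ F` (helper21)
-/

set_option linter.all false

open MeasureTheory Measure Set
open scoped NNReal ENNReal

namespace Vale.Agent.P352X.Two

noncomputable section

variable {E F : Type*} [NormedAddCommGroup E] [NormedSpace ℝ E] [NormedAddCommGroup F]
  [NormedSpace ℝ F]

/-- left multiplication -/
def sdm (l : E →L[ℝ] ℝ) (x y : E × F) : E × F := (x.1 + y.1, x.2 + Real.exp (l x.1) • y.2)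

/-- the semidirect product -/
def SD (_l : E →L[ℝ] ℝ) (F : Type*) := E × F

variable (l : E →L[ℝ] ℝ)

instance : TopologicalSpace (SD l F) := inferInstanceAs (TopologicalSpace (E × F))

instance : Group (SD l F) where
  mul x y := sdm l x y
  one := ((0, 0) : E × F)
  inv x := ((-x.1, -(Real.exp (-l x.1) • x.2)) : E × F)
  mul_assoc x y z := by
    change sdm l (sdm l x y) z = sdm l x (sdm l y z)
    simp only [sdm, map_add, Real.exp_add, smul_add, mul_smul, add_assoc]
  one_mul x := by
    change sdm l (0, 0) x = ((x.1, x.2) : E × F)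
    simp [sdm]
  mul_one x := by
    change sdm l x (0, 0) = ((x.1, x.2) : E × F)
    simp [sdm]
  inv_mul_cancel x := by
    change sdm l (-x.1, -(Real.exp (-l x.1) • x.2)) x = ((0, 0) : E × F)
    simp [sdm]

instance : IsTopologicalGroup (SD l F) where
  continuous_mul := by
    change Continuous fun p : (E × F) × (E × F) => sdm l p.1 p.2
    unfold sdm
    fun_prop
  continuous_inv := by
    change Continuous fun x : E × F => ((-x.1, -(Real.exp (-l x.1) • x.2)) : E × F)
    fun_prop

variable [FiniteDimensional ℝ E] [FiniteDimensional ℝ F] [MeasurableSpace E] [BorelSpace E]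
  [MeasurableSpace F] [BorelSpace F]

instance : MeasurableSpace (SD l F) := inferInstanceAs (MeasurableSpace (E × F))
instance : BorelSpace (SD l F) := inferInstanceAs (BorelSpace (E × F))
instance : LocallyCompactSpace (SD l F) := inferInstanceAs (LocallyCompactSpace (E × F))
instance : SecondCountableTopology (SD l F) := inferInstanceAs (SecondCountableTopology (E × F))

/-- **Uniqueness of the invariant measure.** -/
theorem uq_sd (m m' : Measure (E × F)) [h1 : IsFiniteMeasureOnCompacts m]
    [h2 : IsFiniteMeasureOnCompacts m'] (h : ∀ x, m.map (sdm l x) = m)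
    (h' : ∀ x, m'.map (sdm l x) = m') (h0 : m' ≠ 0) : ∃ κ : ℝ≥0, m = κ • m' := by
  let n : Measure (SD l F) := m
  let n' : Measure (SD l F) := m'
  haveI : IsFiniteMeasureOnCompacts n := h1
  haveI : IsFiniteMeasureOnCompacts n' := h2
  haveI : IsMulLeftInvariant n := ⟨h⟩
  haveI : IsMulLeftInvariant n' := ⟨h'⟩
  obtain ⟨a, e⟩ : ∃ a : ℝ≥0, n = a • haar := ⟨_, isMulLeftInvariant_eq_smul n haar⟩
  obtain ⟨a', e'⟩ : ∃ a : ℝ≥0, n' = a • haar := ⟨_, isMulLeftInvariant_eq_smul n' haar⟩
  have hk : a' ≠ 0 := fun hz => h0 (show n' = 0 by rw [e', hz, zero_smul])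
  have : n = (a / a') • n' := by rw [e', smul_smul, div_mul_cancel₀ _ hk, e]
  exact ⟨_, this⟩

end

end Vale.Agent.P352X.Two
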