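import Vale.Agent.P352X.R.TWO.Mu

/-!
# P352X: the stress tensor as a covariant multiplet (helper21)
-/

set_option linter.all false

open MeasureTheory Measure Set Filter Topology
open scoped SchwartzMap ComplexConjugate NNReal ENNReal LineDeriv

namespace Vale.Agent.P352X.Two

open Vale.Agent.P352.GF Vale.Agent.P352.BW Vale.Agent.P352.H496 Vale.Agent.P352.H755
open UniformSpace (Completion)
open Complex (I)

noncomputable section

variable {D : Type*} [NormedAddCommGroup D] [InnerProductSpace ℂ D] {c : Ctx D}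

/-- the stress tensor applied to the vacuum -/
def LT (c : Ctx D) (J : Fin 2 → Ix) : Sch →L[ℂ] Completion D :=
  Completion.toComplL ∘L Grp.fC (Grp.T_fld c.hT (J 0) (J 1)) c.Q.vac

lemma LT_apply (J : Fin 2 → Ix) (f : Sch) :
    LT c J f = (c.T (J 0) (J 1) (ev f) c.Q.vac : D) := rfl

lemma sum2 {M : Type*} [AddCommMonoid M] (F : (Fin 2 → Ix) → M) :
    ∑ J, F J = ∑ m, ∑ n, F ![m, n] := by
  rw [← (finTwoArrowEquiv Ix).symm.sum_comp, Fintype.sum_prod_type]
  rfl

lemma coe_sum {ι : Type*} (s : Finset ι) (v : ι → D) :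
    ((∑ i ∈ s, v i : D) : Completion D) = ∑ i ∈ s, (v i : Completion D) :=
  _root_.map_sum (Completion.toComplL (𝕜 := ℂ) (E := D)) v s

theorem mu_T (c : Ctx D) : Mu c 4 (LT c) := fun μ s L a f g hs hL e => by
  have := c.hT.cov (μ 0) (μ 1) s L a (ev f) c.Q.vac hs hL ⟨f, rfl⟩
  rw [c.Q.U_vac s L a hs hL, show (fun x => ev f (sim s L a x)) = ev g from (funext e).symm] at this
  rw [LT_apply, this, sum2]
  simp only [coe_sum, Completion.coe_smul, LT_apply, Grp.coe hs hL, sub_self, Real.rpow_zero,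
    one_mul, Fin.prod_univ_two, Matrix.cons_val_zero, Matrix.cons_val_one, Complex.ofReal_mul]

lemma Tv_hk (h k : V) (f : Sch) :
    c.Tv (hk h k (ev f)) = ∑ J, (sy ![h, k] J : ℂ) • LT c J f := by
  rw [Ctx.Tv, Ctx.Tf, Grp.T_hk c.hT h k ⟨f, rfl⟩, sum2]
  simp only [coe_sum, Completion.coe_smul, LT_apply, sy, Fin.prod_univ_two, Matrix.cons_val_zero,
    Matrix.cons_val_one]

lemma LT_perp (J : Fin 2 → Ix) (f : Sch) : inner ℂ c.Om (LT c J f) = 0 :=
  (Completion.inner_coe _ _).trans (Grp.perp c.hT _ _ ⟨f, rfl⟩)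

lemma LT_sym (m n : Ix) : LT c ![m, n] = LT c ![n, m] :=
  ContinuousLinearMap.ext fun f => congrArg (fun v : D => (v : Completion D)) (c.hT.symm m n _ _ ⟨f, rfl⟩)

/-- conservation -/
lemma LT_con (n : Ix) {G : V → ℂ} (hG : ∀ m, SN.Bd fun p => G p * (eta m * p m : ℝ))
    (h0 : SN.Bd G) : ∑ m, c.bt.Phi (fun p => G p * (eta m * p m : ℝ)) (LT c ![m, n] gS) = 0 := by
  have e : ∑ m, LT c ![m, n] (∂_{(bas m 1 : V)} gS) = 0 := by
    simp only [LT_apply, ← Grp.pd_ev, ← coe_sum]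
    exact (congrArg _ (c.hT.conserved n _ _ ⟨gS, rfl⟩)).trans (Completion.coe_zero)
  have b := wt_g0.bd
  refine Phi_inj (c := c) b g0_ne ?_
  have := congrArg (fun z => I • c.bt.Phi G (c.bt.Phi (ft g0) z)) e
  simp only [_root_.map_sum, map_zero, smul_zero, Finset.smul_sum, (mu_T c).rel] at this ⊢
  refine (Finset.sum_congr rfl fun m _ => ?_).trans this
  rw [← c.bt.mul_apply b (hG m), ← c.bt.mul_apply h0 (bd_ft ⟨_, rfl⟩),
    ← ContinuousLinearMap.smul_apply, ← c.bt.smul _ (h0.mul (bd_ft ⟨_, rfl⟩))]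
  congr 2
  funext p
  rw [← Grp.pd_ev, ft_pd ⟨_, rfl⟩]
  show ft g0 p * _ = I * (G p * (_ * ft g0 p))
  linear_combination (G p * (eta m * p m : ℝ) * ft g0 p) * Complex.I_sq

variable {K : V → ℂ}

lemma zf_swap (a b : Fin 4) : Zf c (LT c) K ![a, b] = Zf c (LT c) K ![b, a] := by
  simp only [Zf, Zs, sum2]
  rw [Finset.sum_comm]
  refine Finset.sum_congr rfl fun m _ => Finset.sum_congr rfl fun n _ => ?_
  simp only [LT_sym n m, sy, Fin.prod_univ_two, Matrix.cons_val_zero, Matrix.cons_val_one,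
    mul_comm]

lemma zf_zero0 (hK : Ad 2 K) (b : Fin 4) : Zf c (LT c) K ![3, b] = 0 := by
  obtain ⟨K', h1, h2⟩ := ex_wt (fun n p => ((eta n * fr b p n : ℝ) : ℂ)) fun n =>
    Complex.continuous_ofReal.comp (by have := cont_fr b; fun_prop)
  refine Phi_inj (c := c) h1.bd h1.ne ?_
  simp only [Zf, Zs, sum2, _root_.map_sum, map_zero]
  rw [Finset.sum_comm]
  refine Finset.sum_eq_zero fun n _ => ?_
  have e : ∀ m, (fun p => K p * (K' p * (eta n * fr b p n : ℝ)) * (eta m * p m : ℝ)) =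
      fun p => K' p * (K p * sy (fun j => fr (![3, b] j) p) ![m, n]) := fun m => funext fun p => by
    simp only [sy, Fin.prod_univ_two, Matrix.cons_val_zero, Matrix.cons_val_one]
    show _ = K' p * (K p * ((eta m * p m * _ : ℝ) : ℂ))
    push_cast
    ring
  have := LT_con (c := c) n (fun m => by rw [e]; exact h1.bd.mul (hK.ok _ _))
    (hK.wt.bd.mul (h2 n))
  simpa only [e, c.bt.mul_apply h1.bd (hK.ok _ _)] using this

/-- longitudinal components vanish -/
theorem zf_zero (hK : Ad 2 K) {A : Fin 2 → Fin 4} (h : A 0 = 3 ∨ A 1 = 3) :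
    Zf c (LT c) K A = 0 := by
  rw [show A = ![A 0, A 1] from funext fun j => by fin_cases j <;> rfl]
  rcases h with h | h
  · rw [h, zf_zero0 hK]
  · rw [h, zf_swap, zf_zero0 hK]

lemma zf_perp (hK : Ad 2 K) (A : Fin 2 → Fin 4) : inner ℂ c.Om (Zf c (LT c) K A) = 0 := by
  rw [Zf, Zs, inner_sum]
  exact Finset.sum_eq_zero fun J _ => (Kin.inner_om_Phi c.bR c.ct (hK.ok A J) _).trans (by
    rw [show inner ℂ (om c.Q) (LT c J gS) = 0 from LT_perp J gS, mul_zero])

lemma yw_ge (a : Fin 4) : -1 / 2 ≤ yw a := by fin_cases a <;> norm_num [yw]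

lemma Ad.wt1 {k : ℕ} (hK : Ad k K) : Wt (fun p => K p * ft g0 p) univ := hK.wt.mul wt_g0

theorem zf_ae (hK : Ad 2 K) (A : Fin 2 → Fin 4) : ∀ᵐ p ∂c.nu (Zf c (LT c) K A), p ∈ Fc :=
  ((mu_T c).vc hK A).high hK.wt1 (by
    rw [Fin.sum_univ_two]; linarith [yw_ge (A 0), yw_ge (A 1)]) (zf_perp hK A)

end

end Vale.Agent.P352X.Two
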