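import Vale.Agent.P352X.R.TWO.Rho
import Vale.Agent.P352X.SN.Mul

/-!
# P352X: covariant vectors and their overlaps (helper21)
-/

set_option linter.all false

open MeasureTheory Measure Set Filter Topology
open scoped SchwartzMap ComplexConjugate NNReal ENNReal

namespace Vale.Agent.P352X.Two

open Vale.Agent.P352.GF Vale.Agent.P352.BW Vale.Agent.P352.H496 Vale.Agent.P352.H755
open Vale.Agent.P352.H246 (In)
open UniformSpace (Completion)
open Complex (I)

noncomputable section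

section meas

variable {ρ : Measure V} {A B : ℝ}

/-- the borderline case -/
theorem Semi.zero1 (h : Semi ρ (-1) B) (hf : FinOn ρ {p | 0 < be p}) (hc : ∀ᵐ p ∂ρ, p ∈ Fc) :
    ρ = 0 := by
  have key : ∀ (n : ℕ) (R : ℝ), 0 < R → ρ (box n (Ioc R (2 * R))) = 0 := fun n R hR => by
    obtain ⟨a, e⟩ := tile h hf n (J := Ioc 0 R) measurableSet_Ioc Ioc_subset_Icc_self
    obtain ⟨a', e'⟩ := tile h hf n (J := Ioc 0 (2 * R)) measurableSet_Ioc Ioc_subset_Icc_self
    obtain ⟨b, e''⟩ := tile h hf n (J := Ioc R (2 * R)) measurableSet_Ioc (R := 2 * R)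
      fun m hm => ⟨hR.le.trans hm.1.le, hm.2⟩
    have e1 := restrict_map (μ := ρ) (meas_scp 2 1) (meas_box n (J := Ioc 0 (2 * R)) measurableSet_Ioc)
    rw [h.sc 2 1 two_pos one_pos, show scp 2 1 ⁻¹' box n (Ioc 0 (2 * R)) = box n (Ioc 0 R) from
      Set.ext fun p => by simp [box, mu_scp two_pos one_pos], restrict_smul] at e1
    have e2 := congrArg (Measure.map vv) e1
    have hm : Measurable fun v : R2 => Real.sqrt 2 • v := by fun_prop
    rw [Measure.map_smul, e', map_map meas_vv (meas_scp _ _), show vv ∘ scp 2 1 =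
      (fun v => Real.sqrt 2 • v) ∘ vv from funext fun p => by simp [vv_scp],
      ← map_map hm meas_vv, e, Measure.map_smul,
      map_addHaar_smul _ (Real.sqrt_pos.2 two_pos).ne'] at e2
    have hQ : (volume : Measure R2) (Icc 0 1) = 1 := by simp [Real.volume_Icc_pi]
    have e3 := congrArg (fun m : Measure R2 => (m (Icc 0 1)).toReal) e2
    have u : box n (Ioc 0 (2 * R)) = box n (Ioc 0 R) ∪ box n (Ioc R (2 * R)) := by
      rw [← Ioc_union_Ioc_eq_Ioc hR.le (by linarith : R ≤ 2 * R)]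
      exact Set.ext fun p => and_or_left
    rw [u, restrict_union (Set.disjoint_left.2 fun p h1 h2 => h2.2.1.not_ge h1.2.2)
      (meas_box n measurableSet_Ioc), Measure.map_add _ _ meas_vv, e, e'', ← add_smul] at e'
    have e4 := congrArg (fun m : Measure R2 => (m (Icc 0 1)).toReal) e'
    simp only [Measure.smul_apply, hQ, smul_eq_mul, mul_one, ENNReal.smul_def, ENNReal.toReal_mul,
      ENNReal.coe_toReal, Real.one_rpow, Module.finrank_fin_fun, Real.rpow_neg_one, NNReal.coe_add,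
      Real.sq_sqrt zero_le_two, abs_of_pos (inv_pos.2 (two_pos (α := ℝ))),
      ENNReal.toReal_ofReal (inv_pos.2 (two_pos (α := ℝ))).le] at e3 e4
    have hb : b = 0 := NNReal.coe_eq_zero.1 (by linarith)
    have := congrArg (fun m : Measure R2 => m univ) e''
    simpa [hb, map_apply meas_vv] using this
  have k2 : ρ (⋃ x : ℕ × {q : ℚ // 0 < q}, box x.1 (Ioc x.2 (2 * x.2))) = 0 :=
    measure_iUnion_null fun x => key _ _ (by exact_mod_cast x.2.2)
  refine measure_univ_eq_zero.1 (le_antisymm ((measure_mono_ae ?_).trans k2.le) bot_le)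
  filter_upwards [hc] with p hp _
  obtain ⟨h1, h2⟩ := (mem_Fc p).1 hp
  obtain ⟨n, hn⟩ := exists_nat_gt (max (be p) (be p)⁻¹)
  have h3 := (le_max_left _ _).trans_lt hn
  have h4 := (le_max_right _ _).trans_lt hn
  obtain ⟨q, q1, q2⟩ := exists_rat_btwn (half_lt_self h2)
  exact mem_iUnion.2 ⟨(n, ⟨q, by exact_mod_cast (half_pos h2).trans q1⟩),
    ⟨inv_le_of_inv_le₀ h1 (by linarith), by linarith⟩, q2, by linarith⟩

theorem Semi.zero' (h : Semi ρ A B) (hf : FinOn ρ {p | 0 < be p}) (hA : -1 ≤ A) :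
    ρ.restrict Fc = 0 := by
  rcases hA.eq_or_lt with rfl | hA
  · exact h.fc.zero1 (hf.restrict _) (ae_fc _)
  · refine h.fc.zero (hf.restrict _) ((ae_fc _).mono fun p hp => ?_) hA
    exact ⟨((mem_Fc p).1 hp).1, ((mem_Fc p).1 hp).2.le⟩

lemma fin_wd {S : Set V} [IsFiniteMeasure ρ] {F : V → ℂ} (hc : ContinuousOn F S) :
    FinOn (ρ.withDensity (sq2 F)) S := by
  intro K hK hF
  obtain ⟨C, hC⟩ := hK.bddAbove_image ((hc.mono hF).norm.pow 2)
  rw [withDensity_apply _ hK.measurableSet]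
  exact setLIntegral_lt_top_of_le_nnreal (measure_ne_top _ _) ⟨C.toNNReal, fun p hp =>
    ENNReal.ofReal_le_ofReal (hC ⟨p, hp, rfl⟩)⟩

/-- bounded weights without zeros -/
structure Wt (K : V → ℂ) (S : Set V) : Prop where
  bd : SN.Bd K
  ne : ∀ p, K p ≠ 0
  cont : ContinuousOn K S

lemma ex_wt {ι : Type*} [Fintype ι] (S : ι → V → ℂ) (hS : ∀ i, Continuous (S i)) :
    ∃ K : V → ℂ, Wt K univ ∧ ∀ i, SN.Bd fun p => K p * S i p := by
  have h0 : ∀ p, 0 < 1 + ∑ i, ‖S i p‖ := fun p => by positivity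
  have hc : Continuous fun p => (((1 + ∑ i, ‖S i p‖)⁻¹ : ℝ) : ℂ) :=
    Complex.continuous_ofReal.comp (Continuous.inv₀ (by fun_prop) fun p => (h0 p).ne')
  refine ⟨_, ⟨⟨hc.measurable, 1, fun p => ?_⟩, fun p => ?_, hc.continuousOn⟩, fun i =>
    ⟨(hc.mul (hS i)).measurable, 1, fun p => ?_⟩⟩
  · rw [Complex.norm_real, Real.norm_of_nonneg (inv_pos.2 (h0 p)).le]
    exact inv_le_one_of_one_le₀ (le_add_of_nonneg_right (by positivity))
  · exact Complex.ofReal_ne_zero.2 (inv_pos.2 (h0 p)).ne'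
  · rw [norm_mul, Complex.norm_real, Real.norm_of_nonneg (inv_pos.2 (h0 p)).le,
      inv_mul_le_one₀ (h0 p)]
    exact (Finset.single_le_sum (f := fun i => ‖S i p‖) (fun _ _ => norm_nonneg _)
      (Finset.mem_univ i)).trans (le_add_of_nonneg_left zero_le_one)

lemma Wt.mul {K K' : V → ℂ} {S : Set V} (h : Wt K S) (h' : Wt K' S) :
    Wt (fun p => K p * K' p) S :=
  ⟨h.bd.mul h'.bd, fun p => mul_ne_zero (h.ne p) (h'.ne p), h.cont.mul h'.cont⟩

lemma wt_g0 : Wt (ft g0) univ := ⟨bd_ft g0_in.1, g0_ne, (cont_ft g0_in.1).continuousOn⟩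

end meas

variable {D : Type*} [NormedAddCommGroup D] [InnerProductSpace ℂ D] {c : Ctx D}
  {K : V → ℂ} {S : Set V} {v w : Completion D}

/-- the two point measure of `v / K` -/
def rk (c : Ctx D) (K : V → ℂ) (v : Completion D) : Measure V :=
  (c.nu v).withDensity (sq2 fun p => (K p)⁻¹)

lemma Wt.fin (h : Wt K S) (v : Completion D) : FinOn (rk c K v) S :=
  fin_wd (h.cont.inv₀ fun p _ => h.ne p)

lemma minv (hK : Measurable K) : Measurable fun p => (K p)⁻¹ := hK.inv

lemma wd_inv (ρ : Measure V) (hK : Measurable K) (h : ∀ p, K p ≠ 0) :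
    (ρ.withDensity (sq2 K)).withDensity (sq2 fun p => (K p)⁻¹) = ρ := by
  rw [wd_sq2 _ hK (minv hK)]
  simp only [mul_inv_cancel₀ (h _), sq2_one, withDensity_one]

lemma Wt.nu (h : Wt K S) (v : Completion D) : c.nu v = (rk c K v).withDensity (sq2 K) := by
  rw [rk, wd_sq2 _ (minv h.bd.1) h.bd.1]
  simp only [inv_mul_cancel₀ (h.ne _), sq2_one, withDensity_one]

lemma nu_Phi' {F : V → ℂ} (hF : SN.Bd F) (v : Completion D) :
    c.nu (c.bt.Phi F v) = (c.nu v).withDensity (sq2 F) := c.bt.nu_Phi hF v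

lemma nu_real (t : ℝ) (v : Completion D) :
    c.nu ((t : ℂ) • v) = ENNReal.ofReal (t ^ 2) • c.nu v := by
  rw [Ctx.nu, c.bt.nu_smul, ENNReal.ofReal, ← ENNReal.smul_def]
  congr 1
  ext
  simp [Real.coe_toNNReal _ (sq_nonneg t)]

lemma eq_zero_of_nu (h : c.nu v = 0) : v = 0 := by
  have := c.bt.nu_univ v
  rw [show c.bt.nu v = 0 from h] at this
  simpa using this.symm

/-- `Phi K` is injective -/
lemma Phi_inj (hK : SN.Bd K) (h0 : ∀ p, K p ≠ 0) (h : c.bt.Phi K v = c.bt.Phi K w) : v = w := by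
  refine sub_eq_zero.1 (eq_zero_of_nu (c := c) ?_)
  rw [← wd_inv (c.nu (v - w)) hK.1 h0, ← nu_Phi' hK, map_sub, h, sub_self, Ctx.nu, c.bt.nu_zero,
    withDensity_zero_left]

lemma rk_map (hK : Wt K S) {W : Completion D →L[ℂ] Completion D}
    (hW : W ∈ unitary (Completion D →L[ℂ] Completion D)) {A k : V → V} {t : ℝ} (ht : 0 < t)
    (hk : Measurable k) (h : ∀ y, W * Ut c.Q y = Ut c.Q (A y) * W)
    (hA : ∀ p y, mdot (k p) y = mdot p (A y))
    (e : c.bt.Phi K (W v) = (t : ℂ) • c.bt.Phi (fun p => K (k p)) v) :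
    (rk c K v).map k = ENNReal.ofReal ((t ^ 2)⁻¹) • rk c K v := by
  have a := nu_W hW hk h hA v
  have b := congrArg (fun u => (c.nu u).withDensity (sq2 fun p => (K p)⁻¹)) e
  simp only [nu_real, nu_Phi' hK.bd, nu_Phi' (hK.bd.comp hk), wd_inv _ hK.bd.1 hK.ne,
    withDensity_smul_measure] at b
  rw [wd_sq2 _ (hK.bd.comp hk).1 (minv hK.bd.1)] at b
  simp only [mul_comm (K (k _))] at b
  rw [← wd_sq2 _ (minv hK.bd.1) (hK.bd.comp hk).1] at b
  rw [b, Measure.map_smul] at a
  have m := map_wd (rk c K v) hk (meas_sq2 hK.bd.1)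
  have b2 := congrArg (fun m : Measure V => m.withDensity (sq2 fun p => (K p)⁻¹)) a
  simp only [withDensity_smul_measure] at b2
  rw [show ((c.nu v).withDensity (sq2 fun p => (K p)⁻¹)).withDensity (sq2 fun p => K (k p)) =
    (rk c K v).withDensity fun p => sq2 K (k p) from rfl, m, wd_inv _ hK.bd.1 hK.ne] at b2
  conv_rhs => rw [rk, ← b2, smul_smul, ← ENNReal.ofReal_mul (by positivity),
    inv_mul_cancel₀ (by positivity), ENNReal.ofReal_one, one_smul]

/-- `v / K` is invariant under the null rotations and homogeneous under the scalings -/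
structure Vc (c : Ctx D) (K : V → ℂ) (v : Completion D) (x y : ℝ) : Prop where
  ga : ∀ w, c.bt.Phi K (Ga c.Q w v) = c.bt.Phi (fun p => K (gap (-w) p)) v
  sc : ∀ r s, 0 < r → 0 < s → c.bt.Phi K (Usc c.Q r s v) =
    ((r ^ x * s ^ y : ℝ) : ℂ) • c.bt.Phi (fun p => K (scp s r p)) v

variable {x y x' y' : ℝ}

theorem Vc.semi (h : Vc c K v x y) (hK : Wt K S) : Semi (rk c K v) (-2 * y) (-2 * x) where
  ga w := by
    have := rk_map hK ((grp_row c).uni _ _ _) one_pos (meas_gap (- -w)) ((grp_row c).ga_ut (-w))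
      (md_gap_l (-w)) ((h.ga (-w)).trans (by simp))
    simpa using this
  sc r s hr hs := by
    rw [rk_map hK ((grp_row c).uni _ _ _) (t := s ^ x * r ^ y) (by positivity) (meas_scp r s)
      (fun z => (grp_row c).sc_ut s r z hs hr) (fun p z => md_scp_l p z) (h.sc s r hs hr)]
    congr 2
    rw [mul_comm (-2), mul_comm (-2), Real.rpow_mul hr.le, Real.rpow_mul hs.le,
      Real.rpow_neg (by positivity), Real.rpow_neg (by positivity), Real.rpow_two, Real.rpow_two]
    field_simp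

/-- the part in the open cone -/
theorem Vc.fc (h : Vc c K v x y) (hK : Wt K Fc) : ∃ κ : ℝ≥0, (c.nu v).restrict Fc =
    κ • (mm (2 * x - 2 * y) (2 * y - 2)).withDensity (sq2 K) := by
  obtain ⟨κ, e⟩ := (h.semi hK).eq_mm (hK.fin v)
  rw [show -2 * y - -2 * x = 2 * x - 2 * y by ring, show -(-2 * y) - 2 = 2 * y - 2 by ring] at e
  exact ⟨κ, by rw [hK.nu v, restrict_withDensity meas_Fc, e]; exact withDensity_smul_measure _ _⟩

lemma Wt.mono {T : Set V} (h : Wt K S) (hT : T ⊆ S) : Wt K T := ⟨h.bd, h.ne, h.cont.mono hT⟩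

theorem Vc.low (h : Vc c K v x y) (hK : Wt K univ) (hy : y ≤ 1 / 2) :
    (c.nu v).restrict Fc = 0 := by
  rw [hK.nu v, restrict_withDensity meas_Fc,
    (h.semi hK).zero' ((hK.mono (subset_univ _)).fin v) (by linarith), withDensity_zero_left]

theorem Vc.high (h : Vc c K v x y) (hK : Wt K univ) (hy : 1 / 2 < y) (hv : inner ℂ c.Om v = 0) :
    ∀ᵐ p ∂c.nu v, p ∈ Fc := by
  obtain ⟨κ, e⟩ := (h.semi hK).cls ((hK.mono (subset_univ _)).fin v)
    (withDensity_absolutelyContinuous _ _ (by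
      filter_upwards [Br.ae_be_pos c hv, (bas_thm c).cone v] with p h1 h2 using ⟨h1, h2.2⟩))
    (by linarith)
  rw [hK.nu v, e]
  exact ae_wd (Measure.smul_absolutelyContinuous (ae_wd (ae_fc _) _)) _

lemma Vc.add (h : Vc c K v x y) (h' : Vc c K w x y) (z : ℂ) : Vc c K (v + z • w) x y where
  ga u := by simp only [map_add, map_smul, h.ga, h'.ga]
  sc r s hr hs := by
    simp only [map_add, map_smul, h.sc r s hr hs, h'.sc r s hr hs, smul_add]
    rw [smul_comm z]

lemma Ga_Phi (w : R2) {F : V → ℂ} (hF : SN.Bd F) (v : Completion D) :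
    Ga c.Q w (c.bt.Phi F v) = c.bt.Phi (fun p => F (gap (-w) p)) (Ga c.Q w v) :=
  Phi_W (meas_gap _) ((grp_row c).ga_ut w) (md_gap_l w) hF v

lemma Usc_Phi {r s : ℝ} (hr : 0 < r) (hs : 0 < s) {F : V → ℂ} (hF : SN.Bd F) (v : Completion D) :
    Usc c.Q r s (c.bt.Phi F v) = c.bt.Phi (fun p => F (scp s r p)) (Usc c.Q r s v) :=
  Phi_W (meas_scp _ _) (fun z => (grp_row c).sc_ut r s z hr hs) (fun p z => md_scp_l p z) hF v

/-- multiplication with homogeneous functions -/
lemma Vc.mul (h : Vc c K v x y) (hK : SN.Bd K) {M N : V → ℂ} (hN : SN.Bd N)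
    (hM : SN.Bd fun p => M p * N p) (h1 : ∀ w p, M (gap w p) = M p) {a b : ℝ}
    (h2 : ∀ r s p, 0 < r → 0 < s → M (scp s r p) = (r ^ a * s ^ b : ℝ) * M p) :
    Vc c (fun p => K p * N p) (c.bt.Phi (fun p => M p * N p) v) (x + a) (y + b) where
  ga w := by
    have k := meas_gap (-w)
    rw [Ga_Phi w hM, ← c.bt.mul_apply (hK.mul hN) (hM.comp k), ← c.bt.mul_apply
      ((hK.mul hN).comp k) hM, show (fun p => K p * N p * (M (gap (-w) p) * N (gap (-w) p))) =
        fun p => (N (gap (-w) p) * (M p * N p)) * K p from funext fun p => by rw [h1]; ring,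
      c.bt.mul_apply ((hN.comp k).mul hM) hK, h.ga,
      ← c.bt.mul_apply ((hN.comp k).mul hM) (hK.comp k)]
    congr 2
    funext p
    ring
  sc r s hr hs := by
    have k := meas_scp s r
    rw [Usc_Phi hr hs hM, ← c.bt.mul_apply (hK.mul hN) (hM.comp k), ← c.bt.mul_apply
      ((hK.mul hN).comp k) hM, show (fun p => K p * N p * (M (scp s r p) * N (scp s r p))) =
        fun p => (r ^ a * s ^ b : ℝ) * ((N (scp s r p) * (M p * N p)) * K p) from
          funext fun p => by rw [h2 r s p hr hs]; ring,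
      c.bt.smul _ (((hN.comp k).mul hM).mul hK), ContinuousLinearMap.smul_apply,
      c.bt.mul_apply ((hN.comp k).mul hM) hK, h.sc r s hr hs, map_smul,
      ← c.bt.mul_apply ((hN.comp k).mul hM) (hK.comp k), smul_smul, Real.rpow_add hr,
      Real.rpow_add hs]
    congr 1
    · push_cast; ring
    · congr 2
      funext p
      ring

/-- overlaps, equal weights -/
theorem overlap0 (h : Vc c K v x y) (h' : Vc c K w x y) (hK : Wt K Fc)
    (hv : ∀ᵐ p ∂c.nu v, p ∈ Fc) (hw : ∀ᵐ p ∂c.nu w, p ∈ Fc) : ∃ κ : ℂ, ∀ G, SN.Bd G →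
      inner ℂ v (c.bt.Phi G w) =
        κ * ∫ p, G p ∂(mm (2 * x - 2 * y) (2 * y - 2)).withDensity (sq2 K) := by
  have key : ∀ z : ℂ, ∃ κ : ℝ≥0, ∀ G, SN.Bd G → inner ℂ (v + z • w) (c.bt.Phi G (v + z • w)) =
      κ * ∫ p, G p ∂(mm (2 * x - 2 * y) (2 * y - 2)).withDensity (sq2 K) := fun z => by
    obtain ⟨κ, e⟩ := (h.add h' z).fc hK
    rw [restrict_eq_self_of_ae_mem (SN.Calc.ae_add hv (SN.Calc.ae_smul z hw))] at e
    refine ⟨κ, fun G hG => ?_⟩
    rw [c.bt.inner hG, show c.bt.nu (v + z • w) = _ from e, integral_smul_nnreal_measure]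
    simp [NNReal.smul_def]
  choose κ hκ using key
  refine ⟨(κ 1 - κ (-1) - I * κ I + I * κ (-I)) / 4, fun G hG => ?_⟩
  have a1 := hκ 1 G hG
  have a2 := hκ (-1) G hG
  have a3 := hκ I G hG
  have a4 := hκ (-I) G hG
  simp only [map_add, map_smul, inner_add_left, inner_add_right, inner_smul_left, inner_smul_right,
    map_one, map_neg, Complex.conj_I] at a1 a2 a3 a4
  linear_combination (a1 - a2 - I * a3 + I * a4) / 4 +
    (inner ℂ v (c.bt.Phi G w) - inner ℂ w (c.bt.Phi G v)) / 2 * Complex.I_sq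

/-- removal of a weight -/
theorem lift {m : Measure V} {R F : V → ℂ} (hR : SN.Bd R) (hF : Integrable F m)
    (h : ∀ G, SN.Bd G → inner ℂ v (c.bt.Phi (fun p => G p * R p) w) = ∫ p, G p * R p * F p ∂m)
    (h1 : ∀ᵐ p ∂c.nu v, R p ≠ 0) (h2 : ∀ᵐ p ∂m, R p ≠ 0) {G : V → ℂ} (hG : SN.Bd G) :
    inner ℂ v (c.bt.Phi G w) = ∫ p, G p * F p ∂m := by
  obtain ⟨C, hC0, hC⟩ := hG.nonneg_bound
  let A : ℕ → Set V := fun n => {p | 1 / ((n : ℝ) + 1) ≤ ‖R p‖}
  have hA : ∀ n, MeasurableSet (A n) := fun n => measurableSet_le measurable_const hR.1.norm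
  have e : ∀ n, inner ℂ (c.bt.Phi (fun p => conj ((A n).indicator G p)) v) w =
      ∫ p, (A n).indicator G p * F p ∂m := fun n => by
    have e1 : ∀ p, (A n).indicator (fun p => G p / R p) p * R p = (A n).indicator G p := fun p => by
      by_cases hp : p ∈ A n
      · have : R p ≠ 0 := norm_pos_iff.1 (lt_of_lt_of_le (by positivity) hp)
        simp [hp, this]
      · simp [hp]
    have := h ((A n).indicator fun p => G p / R p) ⟨(hG.1.div hR.1).indicator (hA n), C * (n + 1),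
      fun p => by
        by_cases hp : p ∈ A n
        · rw [indicator_of_mem hp, norm_div, div_le_iff₀ (lt_of_lt_of_le (by positivity) hp)]
          have : 1 ≤ ((n : ℝ) + 1) * ‖R p‖ := (div_le_iff₀' (by positivity)).1 hp
          nlinarith [hC p]
        · rw [indicator_of_notMem hp, norm_zero]
          positivity⟩
    simp only [e1] at this
    rw [← this, c.bt.adj' (hG.indicator (hA n))]
  have lim : ∀ p, R p ≠ 0 → Tendsto (fun n => (A n).indicator G p) atTop (𝓝 (G p)) := fun p hp =>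
    tendsto_const_nhds.congr' (((tendsto_one_div_add_atTop_nhds_zero_nat (𝕜 := ℝ)).eventually
      (eventually_le_nhds (norm_pos_iff.2 hp))).mono fun n hn => (indicator_of_mem (show p ∈ A n from hn) G).symm)
  have bd : ∀ n p, ‖(A n).indicator G p‖ ≤ C := fun n p =>
    (norm_indicator_le_norm_self _ _).trans (hC p)
  have t1 := (c.bt.tendsto_Phi (fun n => (hG.indicator (hA n)).cj) hG.cj (K := C) (v := v)
    (.of_forall fun n => .of_forall fun p => by simpa using bd n p)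
    (h1.mono fun p hp => (Complex.continuous_conj.tendsto _).comp (lim p hp))).inner
    (𝕜 := ℂ) (tendsto_const_nhds (x := w))
  have t2 := tendsto_integral_of_dominated_convergence (μ := m)
    (F := fun n p => (A n).indicator G p * F p) (f := fun p => G p * F p) (fun p => C * ‖F p‖)
    (fun n => (hG.indicator (hA n)).1.aestronglyMeasurable.mul hF.1) (hF.norm.const_mul C)
    (fun n => .of_forall fun p => by rw [norm_mul]; gcongr; exact bd n p)
    (h2.mono fun p hp => (lim p hp).mul_const _)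
  rw [c.bt.adj' hG]
  exact tendsto_nhds_unique t1 (by simpa only [e] using t2)

/-- the densities -/
def dn (K : V → ℂ) (a b : ℝ) (p : V) : ℝ := ‖K p‖ ^ 2 * (be p ^ a * mu p ^ b)

lemma dn_nonneg (K : V → ℂ) (a b : ℝ) {p : V} (hp : p ∈ Fc) : 0 ≤ dn K a b p := by
  obtain ⟨h1, h2⟩ := (mem_Fc p).1 hp
  unfold dn
  positivity

lemma meas_dn (hK : Measurable K) (a b : ℝ) : Measurable (dn K a b) := by unfold dn; fun_prop

lemma mm_wd (hK : Measurable K) (a b : ℝ) : (mm a b).withDensity (sq2 K) =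
    (volume.restrict Fc).withDensity fun p => ENNReal.ofReal (dn K a b p) := by
  rw [mm, ← withDensity_mul _ (meas_pw2 _ _) (meas_sq2 hK)]
  congr 1
  funext p
  rw [Pi.mul_apply, mul_comm, dn, ENNReal.ofReal_mul (sq_nonneg _)]
  rfl

lemma integral_mm (hK : Measurable K) (a b : ℝ) (G : V → ℂ) :
    ∫ p, G p ∂(mm a b).withDensity (sq2 K) = ∫ p in Fc, G p * dn K a b p := by
  rw [mm_wd hK, withDensity_congr_ae (g := fun p => ENNReal.ofReal |dn K a b p|)
    ((ae_fc _).mono fun p hp => by simp only [abs_of_nonneg (dn_nonneg K a b hp)]),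
    SN.integral_wd (meas_dn hK a b).abs.aemeasurable fun _ => abs_nonneg _]
  exact integral_congr_ae ((ae_fc _).mono fun p hp => by
    simp only [abs_of_nonneg (dn_nonneg K a b hp)])

lemma int_dn (hK : Measurable K) {a b : ℝ} {κ : ℝ≥0}
    (e : (c.nu v).restrict Fc = κ • (mm a b).withDensity (sq2 K)) (h : (c.nu v).restrict Fc ≠ 0) :
    IntegrableOn (dn K a b) Fc := by
  have hk : (κ : ℝ≥0∞) ≠ 0 := fun hz => h (by rw [e, ENNReal.coe_eq_zero.1 hz, zero_smul])
  refine ⟨(meas_dn hK a b).aestronglyMeasurable,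
    (hasFiniteIntegral_iff_ofReal ((ae_fc _).mono fun p => dn_nonneg K a b)).2 ?_⟩
  have := measure_lt_top ((c.nu v).restrict Fc) univ
  rw [e, mm_wd hK, Measure.smul_apply, withDensity_apply _ MeasurableSet.univ, restrict_univ,
    ENNReal.smul_def, smul_eq_mul] at this
  exact (ENNReal.mul_lt_top_iff.1 this).elim And.right fun h => h.elim (fun h => (hk h).elim)
    fun h => h ▸ ENNReal.zero_lt_top

lemma Vc.pfc (h : Vc c K v x y) (hK : SN.Bd K) : Vc c K (c.bt.P Fc v) x y := by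
  have := h.mul hK (M := Fc.indicator fun _ => 1) (N := fun _ => 1) (.const 1)
    (by simpa using SN.Bd.ind meas_Fc) (fun w p => by by_cases hp : p ∈ Fc <;> simp [hp, Fc_gap]) (a := 0)
    (b := 0) fun r s p hr hs => by by_cases hp : p ∈ Fc <;> simp [hp, Fc_scp hs hr]
  simpa [SN.Calc.P] using this

/-- **overlaps of covariant vectors** -/
theorem overlap (h : Vc c K v x y) (h' : Vc c K w x' y') (hK : Wt K univ)
    (hv : ∀ᵐ p ∂c.nu v, p ∈ Fc) : ∃ κ : ℂ, (κ ≠ 0 → 1 / 2 < y ∧ 1 / 2 < y') ∧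
      IntegrableOn (fun p => κ * dn K (x + x' - y - y') (y + y' - 2) p) Fc ∧ ∀ G, SN.Bd G →
      inner ℂ v (c.bt.Phi G w) = ∫ p in Fc, G p * (κ * dn K (x + x' - y - y') (y + y' - 2) p) := by
  have pv : c.bt.P Fc v = v := (SN.Calc.P_eq_self meas_Fc).2 hv
  have red : ∀ G, SN.Bd G → inner ℂ v (c.bt.Phi G w) = inner ℂ v (c.bt.Phi G (c.bt.P Fc w)) :=
    fun G hG => by
      rw [SN.Calc.P, c.bt.comm hG (.ind meas_Fc), ← SN.Calc.P, ← SN.Calc.P_adj meas_Fc, pv]
  by_cases h0 : (c.nu v).restrict Fc = 0 ∨ (c.nu w).restrict Fc = 0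
  · refine ⟨0, fun h => (h rfl).elim, by simp, fun G hG => ?_⟩
    rcases h0 with h0 | h0
    · simp [eq_zero_of_nu ((restrict_eq_self_of_ae_mem hv).symm.trans h0)]
    · simp [red G hG, eq_zero_of_nu ((SN.Calc.nu_P meas_Fc w).trans h0)]
  push Not at h0
  have hF := hK.mono (subset_univ Fc)
  obtain ⟨κ1, e1⟩ := h.fc hF
  obtain ⟨κ2, e2⟩ := h'.fc hF
  have i1 := int_dn hK.bd.1 e1 h0.1
  have i2 := int_dn hK.bd.1 e2 h0.2
  have i3 : IntegrableOn (dn K (x + x' - y - y') (y + y' - 2)) Fc := by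
    refine (i1.add i2).mono' (meas_dn hK.bd.1 _ _).aestronglyMeasurable
      ((ae_fc _).mono fun p hp => ?_)
    obtain ⟨h1, h2⟩ := (mem_Fc p).1 hp
    rw [Real.norm_of_nonneg (dn_nonneg _ _ _ hp), Pi.add_apply, dn, dn, dn, ← mul_add,
      show x + x' - y - y' = (x - y) + (x' - y') by ring,
      show y + y' - 2 = (y - 1) + (y' - 1) by ring, show 2 * x - 2 * y = (x - y) * 2 by ring,
      show 2 * x' - 2 * y' = (x' - y') * 2 by ring, show 2 * y - 2 = (y - 1) * 2 by ring,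
      show 2 * y' - 2 = (y' - 1) * 2 by ring]
    simp only [Real.rpow_add h1, Real.rpow_add h2, Real.rpow_mul h1.le, Real.rpow_mul h2.le,
      Real.rpow_two]
    gcongr
    have := mul_nonneg (mul_nonneg (Real.rpow_nonneg h1.le (x - y)) (Real.rpow_nonneg h2.le (y - 1)))
      (mul_nonneg (Real.rpow_nonneg h1.le (x' - y')) (Real.rpow_nonneg h2.le (y' - 1)))
    nlinarith [sq_nonneg (be p ^ (x - y) * mu p ^ (y - 1) - be p ^ (x' - y') * mu p ^ (y' - 1))]
  let M0 : V → ℝ := Fc.indicator fun p => be p ^ (x' - y' - x + y) * mu p ^ (y' - y)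
  have hm : Measurable M0 := Measurable.indicator (by fun_prop) meas_Fc
  have M1 : ∀ p ∈ Fc, 0 < M0 p := fun p hp => by
    obtain ⟨h1, h2⟩ := (mem_Fc p).1 hp
    simp only [M0, indicator_of_mem hp]
    positivity
  have M2 : ∀ p, 0 ≤ M0 p := fun p => by
    by_cases hp : p ∈ Fc
    · exact (M1 p hp).le
    · simp [M0, hp]
  have hN : SN.Bd fun p => (((1 + M0 p)⁻¹ : ℝ) : ℂ) := .ofReal (by fun_prop) (C := 1) fun p => by
    rw [abs_of_pos (by have := M2 p; positivity)]
    exact inv_le_one_of_one_le₀ (by linarith [M2 p])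
  have hM : SN.Bd fun p => (M0 p : ℂ) * (((1 + M0 p)⁻¹ : ℝ) : ℂ) := by
    simp only [← Complex.ofReal_mul]
    refine .ofReal (by fun_prop) (C := 1) fun p => ?_
    have := M2 p
    rw [abs_of_nonneg (by positivity), mul_inv_le_iff₀ (by positivity)]
    linarith
  have hW : Wt (fun p => (((1 + M0 p)⁻¹ : ℝ) : ℂ)) Fc := ⟨hN, fun p => by
    have := M2 p
    exact Complex.ofReal_ne_zero.2 (by positivity), Complex.continuous_ofReal.comp_continuousOn
      (ContinuousOn.inv₀ (continuousOn_const.add (ContinuousOn.congr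
        (((by fun_prop : Continuous be).continuousOn.rpow_const fun p hp =>
          .inl ((mem_Fc p).1 hp).1.ne').mul
        ((by fun_prop : Continuous mu).continuousOn.rpow_const fun p hp =>
          .inl ((mem_Fc p).1 hp).2.ne')) fun p hp => indicator_of_mem hp _))
        fun p _ => by have := M2 p; positivity)⟩
  have a1 := h.mul hK.bd hN hM (fun w p => by
      by_cases hp : p ∈ Fc <;> simp [M0, hp, Fc_gap, mu_gap])
    (a := x' - x) (b := y' - y) fun r s p hr hs => by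
      by_cases hp : p ∈ Fc
      · obtain ⟨h1, h2⟩ := (mem_Fc p).1 hp
        simp only [M0, indicator_of_mem hp, indicator_of_mem ((Fc_scp hs hr).2 hp), be_scp,
          mu_scp hs hr, Real.mul_rpow hr.le h1.le, Real.mul_rpow (mul_pos hs hr).le h2.le,
          Real.mul_rpow hs.le hr.le, ← Complex.ofReal_mul]
        rw [show r ^ (x' - x) = r ^ (x' - y' - x + y) * r ^ (y' - y) by
          rw [← Real.rpow_add hr]; congr 1; ring]
        congr 1
        ring
      · simp [M0, hp, Fc_scp hs hr]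
  have a2 := (h'.pfc hK.bd).mul hK.bd (M := fun _ => 1) hN (by simpa using hN) (fun _ _ => rfl)
    (a := 0) (b := 0) fun r s p hr hs => by simp
  simp only [add_sub_cancel, add_zero, one_mul] at a1 a2
  obtain ⟨κ, e⟩ := overlap0 a1 a2 (hF.mul hW) (c.bt.nu_Phi_ac hM v hv)
    (c.bt.nu_Phi_ac hN _ (by rw [SN.Calc.nu_P meas_Fc]; exact ae_fc _))
  have i4 : IntegrableOn (fun p => κ * dn K (x + x' - y - y') (y + y' - 2) p) Fc :=
    i3.ofReal.const_mul κ
  refine ⟨κ, fun _ => ⟨lt_of_not_ge fun hy => h0.1 (h.low hK hy),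
    lt_of_not_ge fun hy => h0.2 (h'.low hK hy)⟩, i4, fun G hG => (red G hG).trans ?_⟩
  have hne : ∀ p ∈ Fc, (M0 p : ℂ) * (((1 + M0 p)⁻¹ : ℝ) : ℂ) * (((1 + M0 p)⁻¹ : ℝ) : ℂ) ≠ 0 :=
    fun p hp => mul_ne_zero (mul_ne_zero (Complex.ofReal_ne_zero.2 (M1 p hp).ne') (hW.ne p))
      (hW.ne p)
  refine lift (hM.mul hN) i4 (fun G hG => ?_) (hv.mono hne) ((ae_fc _).mono hne) hG
  have := e G hG
  rw [c.bt.adj hM, ← c.bt.mul_apply hG hN, ← c.bt.mul_apply hM.cj (hG.mul hN),
    integral_mm (hF.mul hW).bd.1, ← integral_const_mul] at this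
  refine Eq.trans (by congr 3; funext p; simp; ring) (this.trans ?_)
  refine integral_congr_ae ((ae_fc _).mono fun p hp => ?_)
  obtain ⟨h1, h2⟩ := (mem_Fc p).1 hp
  simp only [dn, norm_mul, Complex.norm_real, Real.norm_eq_abs, mul_pow, sq_abs]
  rw [show 2 * x' - 2 * y' = (x' - y' - x + y) + (x + x' - y - y') by ring,
    show 2 * y' - 2 = (y' - y) + (y + y' - 2) by ring, Real.rpow_add h1, Real.rpow_add h2]
  simp only [M0, indicator_of_mem hp]
  push_cast
  ring

end

end Vale.Agent.P352X.Two
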